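import Vale.Agent.P052.Sphere
import Vale.Agent.P052.Comb

namespace Vale.Agent.P371

open Vale.Agent.P052 Finset

theorem borsuk (n : ℕ) (g : EuclideanSpace ℝ (Fin (n + 1)) → Fin n → ℝ) (hg : Continuous g)
    (hodd : ∀ x, ‖x‖ = 1 → g (-x) = - g x) : ∃ x, ‖x‖ = 1 ∧ g x = 0 := by
  classical
  by_contra hne
  push Not at hne
  have hS : IsCompact (Metric.sphere (0 : EuclideanSpace ℝ (Fin (n + 1))) 1) := isCompact_sphere _ _
  have hne' : (Metric.sphere (0 : EuclideanSpace ℝ (Fin (n + 1))) 1).Nonempty :=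
    ⟨EuclideanSpace.single 0 1, by simp⟩
  obtain ⟨x0, hx0, hmin⟩ := hS.exists_isMinOn hne' (hg.norm.continuousOn)
  have hx0' : ‖x0‖ = 1 := by simpa using hx0
  have hc : 0 < ‖g x0‖ := norm_pos_iff.2 (hne x0 hx0')
  have huc := hS.uniformContinuousOn_of_continuous hg.continuousOn
  obtain ⟨δ, hδ, hd⟩ := Metric.uniformContinuousOn_iff_le.1 huc (‖g x0‖) hc
  obtain ⟨H, hH⟩ := exists_hm (E := EuclideanSpace ℝ (Fin (n + 1))) n
    (fun i => if h : i < n + 1 then EuclideanSpace.single ⟨i, h⟩ 1 else 0)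
    (fun i hi => by simp [Nat.lt_succ_of_le hi])
    (fun i hi j hj hij => by
      simp [Nat.lt_succ_of_le hi, Nat.lt_succ_of_le hj, EuclideanSpace.inner_single_left,
        Fin.ext_iff, hij, hij.symm]) hδ
  have hn : Nonempty (Fin n) := by
    by_contra h
    have : IsEmpty (Fin n) := not_nonempty_iff.1 h
    exact hne x0 hx0' (Subsingleton.elim _ _)
  have ex : ∀ v : Fin n → ℝ, ∃ i, ∀ j, v j ≤ v i := fun v => Finite.exists_max v
  choose am ham using ex
  let lab : EuclideanSpace ℝ (Fin (n + 1)) → Fin n × F2 := fun x =>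
    (am (fun j => |g x j|), if 0 < g x (am fun j => |g x j|) then 0 else 1)
  have big : ∀ x, ‖x‖ = 1 → ‖g x0‖ ≤ |g x (am fun j => |g x j|)| := by
    intro x hx
    have h1 : ‖g x0‖ ≤ ‖g x‖ := hmin (by simpa using hx)
    refine h1.trans ?_
    refine (pi_norm_le_iff_of_nonneg (abs_nonneg _)).2 fun j => ?_
    exact ham (fun j => |g x j|) j
  refine tucker (hH.push (b := fl) (good' := AF) lab ?_ ?_)
  · intro l hl v hv hw
    obtain ⟨x, hx, rfl⟩ := List.mem_map.1 hv
    obtain ⟨y, hy, hxy⟩ := List.mem_map.1 hw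
    have hx1 := (hl x hx).1
    have hy1 := (hl y hy).1
    have h1 : dist (g x) (g y) ≤ ‖g x0‖ :=
      hd x (by simpa using hx1) y (by simpa using hy1) (by rw [dist_eq_norm]; exact (hl x hx).2 y hy)
    have e1 : (am fun j => |g y j|) = am fun j => |g x j| := congrArg Prod.fst hxy
    have e2 := congrArg Prod.snd hxy
    simp only [lab, fl, e1] at e2
    have b1 := big x hx1
    have b2 := big y hy1
    rw [e1] at b2
    have h2 := (dist_le_pi_dist (g x) (g y) (am fun j => |g x j|)).trans h1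
    rw [Real.dist_eq] at h2
    generalize g x (am fun j => |g x j|) = u at *
    generalize g y (am fun j => |g x j|) = w at *
    by_cases hu : 0 < u <;> by_cases hw : 0 < w <;> simp only [hu, hw, if_true, if_false] at e2
    · exact absurd e2 (by decide)
    · rw [abs_of_pos hu] at b1; rw [abs_of_nonpos (not_lt.1 hw)] at b2
      have := le_abs_self (u - w); linarith
    · rw [abs_of_pos hw] at b2; rw [abs_of_nonpos (not_lt.1 hu)] at b1
      have := neg_abs_le (u - w); linarith
    · exact absurd e2 (by decide)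
  · intro l hl x hx
    have hx1 := (hl x hx).1
    have e1 : (fun j => |g (-x) j|) = fun j => |g x j| := by
      funext j; rw [hodd x hx1]; simp
    have b1 := big x hx1
    simp only [lab, fl, e1]
    refine Prod.ext rfl ?_
    simp only [hodd x hx1, Pi.neg_apply]
    generalize g x (am fun j => |g x j|) = u at *
    by_cases hu : 0 < u
    · simp [hu, not_lt.2 hu.le]
    · have : u < 0 := by
        rcases (not_lt.1 hu).lt_or_eq with h | h
        · exact h
        · rw [h] at b1; simp at b1; exact absurd b1 (hne x0 hx0')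
      simp [hu, this]; decide

theorem brouwer_fin (n : ℕ) (f : (Fin n → ℝ) → Fin n → ℝ) (hf : Continuous f) (R : ℝ)
    (hR : ∀ x, ‖f x‖ ≤ R) : ∃ x, f x = x := by
  have hR0 : 0 ≤ R := (norm_nonneg _).trans (hR 0)
  set M : ℝ := (R + 1) * (n + 1) with hM
  let φ : ℝ → ℝ := fun t => max 0 (min 1 (2 * t))
  have hφ : Continuous φ := by fun_prop
  let pr : EuclideanSpace ℝ (Fin (n + 1)) → Fin n → ℝ := fun x i => M * x i.succ
  have hpr : Continuous pr := by fun_prop
  have prn : ∀ x, pr (-x) = - pr x := fun x => by funext i; simp [pr]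
  obtain ⟨x, hx, h0⟩ := borsuk n
    (fun x => pr x - φ (x 0) • f (pr x) + φ (-x 0) • f (-pr x)) (by fun_prop)
    (fun x _ => by
      simp only [prn, PiLp.neg_apply, neg_neg]; abel)
  have key : ∀ y : EuclideanSpace ℝ (Fin (n + 1)), ‖y‖ = 1 → 0 ≤ y 0 →
      pr y = φ (y 0) • f (pr y) → ∃ x, f x = x := by
    intro y hy hy0 h
    have φ1 : |φ (y 0)| ≤ 1 := by
      rw [abs_le]; constructor
      · exact le_trans (by norm_num) (le_max_left _ _)
      · exact max_le zero_le_one (min_le_left _ _)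
    have b : ∀ i : Fin n, |y i.succ| ≤ 1 / (n + 1) := by
      intro i
      have h1 : |pr y i| ≤ R := by
        have : ‖pr y‖ ≤ R := by
          rw [h, norm_smul]
          exact (mul_le_mul φ1 (hR _) (norm_nonneg _) zero_le_one).trans (by linarith)
        exact (norm_le_pi_norm (pr y) i).trans this
      simp only [pr, abs_mul, abs_of_pos (show 0 < M by positivity)] at h1
      rw [le_div_iff₀ (by positivity)]
      have := abs_nonneg (y i.succ)
      have h3 : (R + 1) * (|y i.succ| * (n + 1)) ≤ (R + 1) * 1 := by nlinarith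
      exact le_of_mul_le_mul_left h3 (by positivity)
    have hs : (1 : ℝ) = y 0 ^ 2 + ∑ i : Fin n, y i.succ ^ 2 := by
      have := EuclideanSpace.real_norm_sq_eq y
      rw [hy, Fin.sum_univ_succ] at this
      linarith
    have hs2 : ∑ i : Fin n, y i.succ ^ 2 ≤ n * (1 / (n + 1)) ^ 2 := by
      have : ∑ i : Fin n, y i.succ ^ 2 ≤ ∑ _i : Fin n, (1 / (n + 1 : ℝ)) ^ 2 :=
        sum_le_sum fun i _ => by rw [← sq_abs]; gcongr; exact b i
      simpa using this
    have hs3 : (n : ℝ) * (1 / (n + 1)) ^ 2 ≤ 1 / 2 := by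
      rw [div_pow, one_pow, ← mul_div_assoc, div_le_div_iff₀ (by positivity) (by norm_num)]
      nlinarith [sq_nonneg (n : ℝ)]
    have : φ (y 0) = 1 := by
      have : 1 ≤ 2 * y 0 := by nlinarith
      simp [φ, this]
    rw [this, one_smul] at h
    exact ⟨_, h.symm⟩
  rcases le_total 0 (x 0) with h | h
  · have : φ (-x 0) = 0 := max_eq_left ((min_le_right _ _).trans (by linarith))
    simp only [this, zero_smul, add_zero] at h0
    exact key x hx h (sub_eq_zero.1 h0)
  · have : φ (x 0) = 0 := max_eq_left ((min_le_right _ _).trans (by linarith))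
    simp only [this, zero_smul, sub_zero] at h0
    refine key (-x) (by simpa using hx) (by simpa using h) ?_
    rw [prn]
    simp only [PiLp.neg_apply]
    exact (neg_eq_of_add_eq_zero_right h0)

theorem brouwer {E : Type*} [NormedAddCommGroup E] [NormedSpace ℝ E] [FiniteDimensional ℝ E]
    (f : E → E) (hf : Continuous f) (R : ℝ) (hR : ∀ x, ‖f x‖ ≤ R) : ∃ x, f x = x := by
  let e : E ≃L[ℝ] (Fin (Module.finrank ℝ E) → ℝ) :=
    ContinuousLinearEquiv.ofFinrankEq (by simp)
  obtain ⟨x, hx⟩ := brouwer_fin _ (fun y => e (f (e.symm y))) (by fun_prop)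
    (‖(e : E →L[ℝ] (Fin (Module.finrank ℝ E) → ℝ))‖ * R) fun y =>
      ((e : E →L[ℝ] (Fin (Module.finrank ℝ E) → ℝ)).le_opNorm _).trans (by gcongr; exact hR _)
  refine ⟨e.symm x, ?_⟩
  apply e.injective
  simpa using hx

end Vale.Agent.P371
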