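import Vale.Agent.P371.Main

namespace Vale.Agent.P371

open Matrix Finset MeasureTheory Filter Topology Real
open scoped ComplexOrder

lemma H1.ibp {E F G : Type*} [NormedAddCommGroup E] [NormedSpace ℝ E] [CompleteSpace E]
    [NormedAddCommGroup F] [NormedSpace ℝ F] [CompleteSpace F]
    [NormedAddCommGroup G] [NormedSpace ℝ G] [CompleteSpace G]
    (B : E →L[ℝ] F →L[ℝ] G) {f f' : ℝ → E} {g g' : ℝ → F} (hf : H1 f f') (hg : H1 g g') :
    (∫ t, B (f' t) (g t)) + ∫ t, B (f t) (g' t) = 0 := by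
  have i1 := int_L2 B hf.mem' hg.mem
  have i2 := int_L2 B hf.mem hg.mem'
  rw [← integral_add i1 i2]
  refine norm_le_zero_iff.1 (le_of_forall_pos_le_add fun ε hε => ?_)
  have t := (intervalIntegral_tendsto_integral (i1.add i2) tendsto_neg_atTop_atBot tendsto_id).norm
  refine le_of_tendsto_of_frequently t ?_
  refine ((freq_small (int_L2 B hf.mem hg.mem).norm hε).and_eventually
    (eventually_ge_atTop 0)).mono fun T hT => ?_
  have := prim_mul0 B (show -T ≤ T by linarith [hT.2]) (hf.primOn _ _) (hg.primOn _ _)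
  simp only [Pi.add_apply, id]
  rw [← this]
  linarith [norm_sub_le (B (f T) (g T)) (B (f (-T)) (g (-T))), hT.1]

lemma int_cosh {a : ℝ} (ha : 0 < a) : Integrable fun x => cosh x ^ (-a) := by
  have hc : Continuous fun x => cosh x ^ (-a) :=
    continuous_cosh.rpow_const fun x => Or.inl (cosh_pos x).ne'
  have b : ∀ x y, exp y / 2 ≤ cosh x → ‖cosh x ^ (-a)‖ ≤ 2 ^ a * exp (-a * y) := fun x y h => by
    rw [Real.norm_of_nonneg (rpow_nonneg (cosh_pos x).le _)]
    refine (rpow_le_rpow_of_nonpos (by positivity) h (by linarith)).trans (le_of_eq ?_)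
    rw [div_rpow (exp_pos _).le zero_le_two, ← exp_mul, rpow_neg zero_le_two, mul_comm y]
    field_simp
  rw [← integrableOn_univ, ← Set.Iic_union_Ioi (a := 0)]
  refine IntegrableOn.union ?_ ?_
  · refine ((integrableOn_exp_mul_Iic ha 0).const_mul (2 ^ a)).mono' hc.aestronglyMeasurable
      (Eventually.of_forall fun x => ?_)
    simpa using b x (-x) (by rw [cosh_eq]; linarith [exp_pos x])
  · refine ((exp_neg_integrableOn_Ioi 0 ha).const_mul (2 ^ a)).mono' hc.aestronglyMeasurable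
      (Eventually.of_forall fun x => ?_)
    exact b x x (by rw [cosh_eq]; linarith [exp_pos (-x)])

lemma memL2_of_le {q C : ℝ} (hq : 0 < q) {f : ℝ → ℝ} (hf : Continuous f)
    (h : ∀ x, |f x| ≤ C * cosh x ^ (-q)) : MemLp f 2 volume := by
  refine (memLp_two_iff_integrable_sq hf.aestronglyMeasurable).2
    (((int_cosh (a := q + q) (by linarith)).const_mul (C ^ 2)).mono'
      (hf.pow 2).aestronglyMeasurable (Eventually.of_forall fun x => ?_))
  rw [Real.norm_of_nonneg (sq_nonneg _), neg_add, rpow_add (cosh_pos x), ← sq, ← mul_pow, ← sq_abs]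
  gcongr
  exact h x

lemma hasDerivAt_tanh' (x : ℝ) : HasDerivAt tanh (cosh x ^ (-2 : ℝ)) x := by
  have := (hasDerivAt_sinh x).fun_div (hasDerivAt_cosh x) (cosh_pos x).ne'
  simp only [← Real.tanh_eq_sinh_div_cosh] at this
  refine this.congr_deriv ?_
  rw [rpow_neg (cosh_pos x).le, rpow_two, ← sq, ← sq, cosh_sq_sub_sinh_sq, one_div]

lemma one_sub_tanh (x : ℝ) : 1 - tanh x ^ 2 = cosh x ^ (-2 : ℝ) := by
  have := cosh_pos x
  rw [rpow_neg (cosh_pos x).le, rpow_two, Real.tanh_eq_sinh_div_cosh]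
  field_simp
  exact cosh_sq_sub_sinh_sq x

lemma integral_cosh (q : ℝ) (hq : 0 < q) : ∫ x, (cosh x ^ (-2 : ℝ)) ^ (q + 1) = 2 * B0 q := by
  have := integral_image_eq_integral_abs_deriv_smul MeasurableSet.univ
    (fun x _ => (hasDerivAt_tanh' x).hasDerivWithinAt) tanh_injective.injOn
    (fun u : ℝ => (1 - u ^ 2) ^ q)
  rw [tanh_bijOn.image_eq, Measure.restrict_univ, ← integral_Ioc_eq_integral_Ioo,
    ← intervalIntegral.integral_of_le (by norm_num)] at this
  have hc : Continuous fun u : ℝ => (1 - u ^ 2) ^ q :=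
    Continuous.rpow_const (by fun_prop) fun _ => Or.inr hq.le
  have e := intervalIntegral.integral_comp_neg (a := 0) (b := 1) fun u : ℝ => (1 - u ^ 2) ^ q
  simp only [neg_sq, neg_zero] at e
  rw [← intervalIntegral.integral_add_adjacent_intervals (b := 0) (hc.intervalIntegrable _ _)
    (hc.intervalIntegrable _ _), ← e] at this
  rw [two_mul, B0, this]
  refine integral_congr_ae (Eventually.of_forall fun x => ?_)
  have : 0 < cosh x ^ (-2 : ℝ) := rpow_pos_of_pos (cosh_pos x) _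
  simp only [one_sub_tanh, smul_eq_mul]
  rw [abs_of_pos this, rpow_add_one this.ne', mul_comm]

lemma H1_of_deriv {f g : ℝ → ℝ} (h : ∀ x, HasDerivAt f (g x) x) (hg : Continuous g)
    (h1 : MemLp f 2 volume) (h2 : MemLp g 2 volume) : H1 f g :=
  ⟨h1, h2, fun x y => (intervalIntegral.integral_eq_sub_of_hasDerivAt (fun t _ => h t)
    (hg.intervalIntegrable _ _)).symm⟩

lemma continuous_tanh' : Continuous tanh :=
  continuous_iff_continuousAt.2 fun x => (hasDerivAt_tanh' x).continuousAt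

lemma soliton {q : ℝ} (hq : 0 < q) (c : ℝ) :
    H1 (fun x => c * cosh x ^ (-q)) (fun x => -q * tanh x * (c * cosh x ^ (-q))) ∧
    H1 (fun x => -q * tanh x * (c * cosh x ^ (-q)))
      fun x => (q ^ 2 - q * (q + 1) * cosh x ^ (-2 : ℝ)) * (c * cosh x ^ (-q)) := by
  have hc : ∀ a : ℝ, Continuous fun x => cosh x ^ a := fun a =>
    continuous_cosh.rpow_const fun x => Or.inl (cosh_pos x).ne'
  have c0 : Continuous fun x => c * cosh x ^ (-q) := continuous_const.mul (hc _)
  have c1 : Continuous fun x => -q * tanh x * (c * cosh x ^ (-q)) :=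
    (continuous_const.mul continuous_tanh').mul c0
  have c2 : Continuous fun x => (q ^ 2 - q * (q + 1) * cosh x ^ (-2 : ℝ)) * (c * cosh x ^ (-q)) :=
    (continuous_const.sub (continuous_const.mul (hc _))).mul c0
  have d0 : ∀ x, HasDerivAt (fun x => c * cosh x ^ (-q)) (-q * tanh x * (c * cosh x ^ (-q))) x :=
    fun x => by
      refine (((hasDerivAt_cosh x).rpow_const (Or.inl (cosh_pos x).ne')).const_mul c).congr_deriv ?_
      rw [rpow_sub_one (cosh_pos x).ne', Real.tanh_eq_sinh_div_cosh]; ring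
  have p : ∀ x, 0 < cosh x ^ (-q) := fun x => rpow_pos_of_pos (cosh_pos x) _
  have t1 : ∀ x, |tanh x| ≤ 1 := fun x => abs_le.2 ⟨(neg_one_lt_tanh x).le, (tanh_lt_one x).le⟩
  have m0 := memL2_of_le hq c0 (C := |c|) fun x => by rw [abs_mul, abs_of_pos (p x)]
  have m1 := memL2_of_le hq c1 (C := q * |c|) fun x => by
    rw [abs_mul, abs_mul, abs_mul, abs_of_pos (p x), abs_neg, abs_of_pos hq, mul_assoc q |c|]
    have := p x
    gcongr
    exact mul_le_of_le_one_right hq.le (t1 x)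
  have m2 := memL2_of_le hq c2 (C := (q ^ 2 + q * (q + 1)) * |c|) fun x => by
    rw [abs_mul, abs_mul, abs_of_pos (p x), mul_assoc _ |c|]
    have := p x
    gcongr
    have h1 : 0 < cosh x ^ (-2 : ℝ) := rpow_pos_of_pos (cosh_pos x) _
    have h2 : cosh x ^ (-2 : ℝ) ≤ 1 := by rw [← one_sub_tanh]; linarith [sq_nonneg (tanh x)]
    have h3 : 0 < q * (q + 1) := by positivity
    rw [abs_le]; constructor <;> nlinarith [sq_nonneg q]
  refine ⟨H1_of_deriv d0 c1 m0 m1, H1_of_deriv (fun x => ?_) c2 m1 m2⟩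
  refine (((hasDerivAt_tanh' x).const_mul (-q)).fun_mul (d0 x)).congr_deriv ?_
  rw [← one_sub_tanh]; ring

theorem le_L {m : ℕ} (i0 : Fin m) {γ : ℝ} (h1 : 1 / 2 < γ) :
    ENNReal.ofReal (LT.Lone γ) ≤ LT.L γ m := by
  obtain ⟨q, rfl⟩ : ∃ q, γ = q + 1 / 2 := ⟨γ - 1 / 2, by ring⟩
  have hq : 0 < q := by linarith
  have hU : Un (1 : Matrix (Fin m) (Fin m) ℂ) := ⟨by simp, by simp⟩
  set V : ℝ → ℝ := fun x => q * (q + 1) * cosh x ^ (-2 : ℝ) with hV
  have p2 : ∀ x, 0 < cosh x ^ (-2 : ℝ) := fun x => rpow_pos_of_pos (cosh_pos x) _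
  have V0 : ∀ x, 0 ≤ V x := fun x => by have := p2 x; simp only [hV]; positivity
  set W : ℝ → Matrix (Fin m) (Fin m) ℂ := fun x => cj 1 (Pi.single i0 (V x)) with hW
  have ep : q + 1 / 2 + 1 / 2 = q + 1 := by ring
  have tr : ∀ x, LT.trPow (q + 1) (W x) = (q * (q + 1)) ^ (q + 1) * (cosh x ^ (-2 : ℝ)) ^ (q + 1) :=
    fun x => by
      change rt (fc _ (cj 1 _)) = _
      rw [fc_cj hU, rt_cj hU, sum_eq_single i0 (fun j _ hj => by
        simp [hj, zero_rpow (show q + 1 ≠ 0 by linarith)]) (by simp), Pi.single_eq_same,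
        mul_rpow (by positivity) (p2 x).le]
  have hI : ∫ x, LT.trPow (q + 1) (W x) = (q * (q + 1)) ^ (q + 1) * (2 * B0 q) := by
    simp only [tr]; rw [integral_const_mul, integral_cosh q hq]
  have hB := B0_pos hq
  have hpot : LT.IsPotential (q + 1) W := by
    refine ⟨fun i j => ?_, fun x => psd_cj _ fun i => ?_, ?_⟩
    · have : Measurable V := by simp only [hV]; fun_prop
      simp only [hW, cj, Matrix.one_mul, conjTranspose_one, Matrix.mul_one, diagonal_apply,
        Pi.single_apply]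
      split_ifs <;> fun_prop
    · rw [Pi.single_apply]; split_ifs; exacts [V0 x, le_rfl]
    · simp only [tr, ← rpow_mul (cosh_pos _).le]
      refine Integrable.const_mul ?_ _
      simpa [neg_mul] using int_cosh (a := 2 * (q + 1)) (by linarith)
  have hn : 0 < ∫ x, cosh x ^ (-(q + q)) := by
    refine (integral_pos_iff_support_of_nonneg (fun x => rpow_nonneg (cosh_pos x).le _)
      (int_cosh (by linarith))).2 ?_
    rw [Function.support_eq_univ fun x => (rpow_pos_of_pos (cosh_pos x) _).ne']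
    simp
  set c := (√(∫ x, cosh x ^ (-(q + q))))⁻¹ with hc
  obtain ⟨s1, s2⟩ := soliton hq c
  set e : ℝ →L[ℝ] (Fin m → ℂ) := ContinuousLinearMap.toSpanSingleton ℝ (Pi.single i0 1) with he
  have dot : ∀ (v : Fin m → ℂ) (t : ℝ), star v ⬝ᵥ e t = t • star (v i0) := fun v t => by
    simp [he, mul_comm]
  have s3 := s1.comp e
  have hEig : LT.IsEigen W (-q ^ 2) fun x => e (c * cosh x ^ (-q)) := by
    refine ⟨_, ⟨s3.1, s3.2, s3.3⟩, fun φ h hφ => ?_⟩
    have s4 := H1.comp ⟨hφ.1, hφ.2, hφ.3⟩ ((Complex.conjCLE : ℂ →L[ℝ] ℂ).comp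
      (ContinuousLinearMap.proj (R := ℝ) (φ := fun _ : Fin m => ℂ) i0))
    have k := H1.ibp (ContinuousLinearMap.lsmul ℝ ℝ) s2 s4
    have i1 := int_L2 (ContinuousLinearMap.lsmul ℝ ℝ) s2.mem' s4.mem
    have i2 := (int_L2 (ContinuousLinearMap.lsmul ℝ ℝ) s1.mem s4.mem).const_mul ((q ^ 2 : ℝ) : ℂ)
    have eW : ∀ x, star (φ x) ⬝ᵥ (W x *ᵥ e (c * cosh x ^ (-q))) =
        ((q ^ 2 : ℝ) : ℂ) * ((c * cosh x ^ (-q)) • star (φ x i0)) -
        ((q ^ 2 - V x) * (c * cosh x ^ (-q))) • star (φ x i0) := fun x => by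
      have : W x *ᵥ e (c * cosh x ^ (-q)) = e (V x * (c * cosh x ^ (-q))) := by
        ext i
        by_cases hi : i = i0 <;> simp [hW, he, cj, mulVec_diagonal, Pi.single_apply, hi]
      rw [this, dot]
      simp only [Complex.real_smul]; push_cast; ring
    simp only [eW, dot]
    erw [integral_sub i2 i1, integral_const_mul]
    change (∫ x, ((q ^ 2 - V x) * (c * cosh x ^ (-q))) • star (φ x i0)) +
      ∫ x, (-q * tanh x * (c * cosh x ^ (-q))) • star (h x i0) = 0 at k
    change _ - (_ * (∫ x, (c * cosh x ^ (-q)) • star (φ x i0)) -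
      ∫ x, ((q ^ 2 - V x) * (c * cosh x ^ (-q))) • star (φ x i0)) = _
    push_cast
    linear_combination k
  have hnorm : ∫ x, star (e (c * cosh x ^ (-q))) ⬝ᵥ e (c * cosh x ^ (-q)) = 1 := by
    have : ∀ x, star (e (c * cosh x ^ (-q))) ⬝ᵥ e (c * cosh x ^ (-q)) =
        ((c ^ 2 * cosh x ^ (-(q + q)) : ℝ) : ℂ) := fun x => by
      rw [dot, neg_add, rpow_add (cosh_pos x)]
      simp [he]; ring
    simp only [this]
    rw [integral_complex_ofReal, integral_const_mul, hc, inv_pow, sq_sqrt hn.le,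
      inv_mul_cancel₀ hn.ne', Complex.ofReal_one]
  have hr : ENNReal.ofReal (|-q ^ 2| ^ (q + 1 / 2)) ≤ LT.riesz (q + 1 / 2) W := by
    refine le_iSup_of_le 1 (le_iSup_of_le (fun _ => -q ^ 2) (le_iSup_of_le
      (fun _ x => e (c * cosh x ^ (-q))) (le_iSup_of_le (fun _ => ⟨by nlinarith, hEig⟩)
      (le_iSup_of_le (fun i j => by rw [hnorm, if_pos (Subsingleton.elim _ _)]) (by simp)))))
  have hpos : 0 < ∫ x, LT.trPow (q + 1) (W x) := by rw [hI]; positivity
  unfold LT.L
  rw [ep]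
  refine le_iSup_of_le W (le_iSup_of_le hpot (le_iSup_of_le hpos ?_))
  refine le_trans (le_of_eq ?_) (ENNReal.div_le_div_right hr _)
  rw [← ENNReal.ofReal_div_of_pos hpos, ← LL_eq h1, hI, add_sub_cancel_right, LL, abs_neg,
    abs_of_pos (by positivity), ← rpow_two, ← rpow_mul hq.le,
    show 2 * (q + 1 / 2) = q + (q + 1) by ring, rpow_add hq, mul_rpow hq.le (by linarith),
    div_rpow hq.le (by linarith), rpow_add_one (show q + 1 ≠ 0 by linarith)]
  congr 1
  have : 0 < q ^ (q + 1) := by positivity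
  have : 0 < (q + 1) ^ q := by positivity
  field_simp

end Vale.Agent.P371
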