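import Vale.Agent.P371.Red
import Vale.Agent.P371.Defs

namespace Vale.Agent.P371

open Matrix Finset MeasureTheory Filter Topology
open scoped ComplexOrder Matrix.Norms.Frobenius

variable {m n : Type*} [Fintype m] [DecidableEq m] [Fintype n] [DecidableEq n]

theorem upper {Ψ G : ℝ → Matrix m n ℂ} (hΨ : H1 Ψ G) {W : ℝ → Matrix m m ℂ}
    (hWm : AEStronglyMeasurable W volume) (hWp : ∀ x, (W x).PosSemidef) {q : ℝ} (hq : 0 < q)
    (hq1 : q < 1) (hWi : Integrable fun x => rt (fc (· ^ (q + 1)) (W x)))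
    (hO : ∫ x, (Ψ x)ᴴ * Ψ x = 1) {e : n → ℝ} (he : ∀ j, 0 < e j)
    (hE : (∫ x, (Ψ x)ᴴ * W x * Ψ x) - ∫ x, (G x)ᴴ * G x = cj 1 e) :
    ∑ j, e j ^ (q + 1 / 2) ≤ LL q * ∫ x, rt (fc (· ^ (q + 1)) (W x)) := by
  have h1 : Un (1 : Matrix n n ℂ) := ⟨by simp, by simp⟩
  set γ := q + 1 / 2 with hγ
  have hγ0 : 0 < γ := by positivity
  have h2γ : 2 * q + 1 = 2 * γ := by rw [hγ]; ring
  refine le_of_forall_pos_le_add fun ε' hε' => ?_
  obtain ⟨ε, hε, rfl⟩ : ∃ ε : ℝ, 0 < ε ∧ ε' = (Fintype.card n + 3) * ε :=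
    ⟨ε' / (Fintype.card n + 3), by positivity, by field_simp⟩
  have hN : 0 ≤ (Fintype.card n : ℝ) * ε := by positivity
  rcases le_total 1 γ with hγ1 | hγ1
  · obtain ⟨U, κ, hU, hκ, a1, a2⟩ := reduce hΨ hWm hWp hq hq1 hWi hO hE
      (r := fun _ => cj 1 fun j => e j ^ ((γ - 1) / 2)) continuous_const (fun _ => cj_herm _ _)
      (fun _ => le_rfl) hε
    rw [cj_mul h1, cj_mul h1, cj_mul hU, rt_cj h1] at a2
    have e1 : ∀ j, e j ^ ((γ - 1) / 2) * e j ^ ((γ - 1) / 2) = e j ^ (γ - 1) := fun j => by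
      rw [← Real.rpow_add (he j)]; congr 1; ring
    have e2 : ∀ j, e j * e j ^ (γ - 1) = e j ^ γ := fun j => by
      have := he j
      rw [Real.rpow_sub_one (he j).ne']; field_simp
    simp only [e1, e2] at a2
    have a3 := klein hU h1 (fun k => 1 / γ * κ k ^ (2 * γ)) (fun i => (1 - 1 / γ) * e i ^ γ)
      (fun k => κ k * κ k) (fun i => e i ^ (γ - 1)) fun k i => by
        have := Real.geom_mean_le_arith_mean2_weighted (w₁ := 1 / γ) (w₂ := 1 - 1 / γ)
          (p₁ := κ k ^ (2 * γ)) (p₂ := e i ^ γ) (by positivity)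
          (by rw [sub_nonneg, div_le_one hγ0]; exact hγ1) (Real.rpow_nonneg (hκ k) _)
          (Real.rpow_nonneg (he i).le _) (by ring)
        rwa [← Real.rpow_mul (hκ k), ← Real.rpow_mul (he i).le,
          show 2 * γ * (1 / γ) = 2 by field_simp, show γ * (1 - 1 / γ) = γ - 1 by field_simp,
          Real.rpow_two, sq] at this
    rw [← mul_sum, ← mul_sum] at a3
    rw [h2γ] at a1
    have a4 : 1 / γ * ∑ j, e j ^ γ ≤ 1 / γ * ∑ k, κ k ^ (2 * γ) + ε := by linarith
    have a5 := mul_le_mul_of_nonneg_left a4 hγ0.le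
    rw [mul_add, ← mul_assoc, ← mul_assoc, mul_one_div_cancel hγ0.ne', one_mul, one_mul] at a5
    have : γ * ε ≤ 2 * ε := by gcongr; linarith
    linarith
  · set δ := ε ^ (1 / γ) with hδ
    have hδ0 : 0 < δ := by positivity
    have hδ1 : δ ^ γ = ε := by
      rw [hδ, ← Real.rpow_mul hε.le, one_div_mul_cancel hγ0.ne', Real.rpow_one]
    obtain ⟨U, κ, hU, hκ, a1, a2⟩ := reduce hΨ hWm hWp hq hq1 hWi hO hE
      (r := fun K => fc (fun t => (t ^ 2 + δ) ^ ((γ - 1) / 2)) (herm K))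
      (continuous_fc (Continuous.rpow_const (by fun_prop) fun t => Or.inl (by positivity))
        continuous_herm herm_herm) (fun K => fc_herm (herm_herm K) _)
      (ρ := Fintype.card n * δ ^ ((γ - 1) / 2)) (fun K => by
        obtain ⟨V, d, hV, e⟩ := spec (herm_herm K)
        rw [e, fc_cj hV]
        refine (norm_cj_le hV _).trans ?_
        simpa using sum_le_sum (s := univ) fun i _ =>
          show |(d i ^ 2 + δ) ^ ((γ - 1) / 2)| ≤ δ ^ ((γ - 1) / 2) by
            rw [abs_of_nonneg (by positivity)]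
            exact Real.rpow_le_rpow_of_nonpos hδ0 (by nlinarith [sq_nonneg (d i)]) (by linarith)) hε
    have l0 : ∀ j, 0 < κ j ^ 2 + δ := fun j => by positivity
    rw [herm_of (cj_herm _ _), fc_cj hU, cj_mul hU, cj_mul hU, cj_mul hU, rt_cj hU] at a2
    have e1 : ∀ j, (κ j ^ 2 + δ) ^ ((γ - 1) / 2) * (κ j ^ 2 + δ) ^ ((γ - 1) / 2) =
        (κ j ^ 2 + δ) ^ (γ - 1) := fun j => by
      rw [← Real.rpow_add (l0 j)]; congr 1; ring
    simp only [e1] at a2
    have a3 := klein h1 hU (fun k => -e k ^ γ) (fun i => (1 - γ) * (κ i ^ 2 + δ) ^ γ)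
      (fun k => -γ * e k) (fun i => (κ i ^ 2 + δ) ^ (γ - 1)) fun k i => by
        have hk := he k
        have hi := l0 i
        have := Real.geom_mean_le_arith_mean2_weighted (w₁ := γ) (w₂ := 1 - γ)
          (p₁ := e k * (κ i ^ 2 + δ) ^ (γ - 1)) (p₂ := (κ i ^ 2 + δ) ^ γ) hγ0.le
          (by linarith) (by positivity) (by positivity) (by ring)
        rw [Real.mul_rpow hk.le (by positivity), ← Real.rpow_mul hi.le, ← Real.rpow_mul hi.le,
          mul_assoc, ← Real.rpow_add hi, show (γ - 1) * γ + γ * (1 - γ) = 0 by ring,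
          Real.rpow_zero, mul_one] at this
        linarith
    rw [← cj_smul, Matrix.smul_mul, rt_smul, sum_neg_distrib, ← mul_sum] at a3
    have a4 : ∑ i, κ i * κ i * (κ i ^ 2 + δ) ^ (γ - 1) ≤ ∑ i, (κ i ^ 2 + δ) ^ γ :=
      sum_le_sum fun i _ => by
        have hi := l0 i
        rw [Real.rpow_sub_one hi.ne', ← mul_div_assoc, div_le_iff₀ hi, mul_comm]
        gcongr; nlinarith
    have a5 : ∑ i, (κ i ^ 2 + δ) ^ γ ≤ ∑ i, κ i ^ (2 * γ) + Fintype.card n * ε := by
      have := sum_le_sum (s := univ) fun i _ =>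
        show (κ i ^ 2 + δ) ^ γ ≤ κ i ^ (2 * γ) + ε by
          rw [← hδ1, Real.rpow_mul (hκ i), Real.rpow_two]
          exact Real.rpow_add_le_add_rpow (sq_nonneg _) hδ0.le hγ0.le hγ1
      simpa [sum_add_distrib] using this
    rw [h2γ] at a1
    have a6 := mul_le_mul_of_nonneg_left (a2.trans (add_le_add_left a4 ε)) hγ0.le
    have : γ * ε ≤ ε := mul_le_of_le_one_left hε.le hγ1
    linarith

noncomputable def entL (i : m) (j : n) : Matrix m n ℂ →L[ℝ] ℂ :=
  LinearMap.toContinuousLinearMap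
    { toFun := fun X => X i j, map_add' := fun _ _ => rfl, map_smul' := fun _ _ => rfl }

noncomputable def colL (j : n) : (m → ℂ) →L[ℝ] Matrix m n ℂ :=
  LinearMap.toContinuousLinearMap
    { toFun := fun v => of fun i k => if k = j then v i else 0
      map_add' := fun v w => by ext i k; by_cases h : k = j <;> simp [h]
      map_smul' := fun c v => by ext i k; by_cases h : k = j <;> simp [h] }

omit [DecidableEq m] in
lemma colL_apply (j : n) (v : m → ℂ) (i : m) (k : n) :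
    colL j v i k = if k = j then v i else 0 := rfl

lemma int_entry {M : ℝ → Matrix m n ℂ} (hM : Intg M) (i : m) (j : n) :
    (∫ x, M x) i j = ∫ x, M x i j := ((entL i j).integral_comp_comm hM).symm

lemma LL_eq {γ : ℝ} (hγ : 1 / 2 < γ) : LL (γ - 1 / 2) = LT.Lone γ := by
  have := Real.Gamma_pos_of_pos (show 0 < γ + 1 / 2 by linarith)
  have := Real.Gamma_pos_of_pos (show 0 < γ + 1 by linarith)
  have := Real.pi_pos
  rw [LL, B0_eq (by linarith), LT.Lone, LT.Lcl, show γ - 1 / 2 + 1 = γ + 1 / 2 by ring,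
    show γ - 1 / 2 + 3 / 2 = γ + 1 by ring, show γ + 3 / 2 = γ + 1 / 2 + 1 by ring,
    Real.Gamma_add_one (show γ + 1 / 2 ≠ 0 by linarith)]
  field_simp

theorem sum_le {m N : ℕ} {γ : ℝ} (h1 : 1 / 2 < γ) (h2 : γ < 3 / 2)
    {W : ℝ → Matrix (Fin m) (Fin m) ℂ} (hW : LT.IsPotential (γ + 1 / 2) W) (lam : Fin N → ℝ)
    (ψ : Fin N → ℝ → Fin m → ℂ) (hl : ∀ j, lam j < 0 ∧ LT.IsEigen W (lam j) (ψ j))
    (ho : ∀ i j, ∫ x, star (ψ i x) ⬝ᵥ ψ j x = if i = j then 1 else 0) :
    ∑ j, |lam j| ^ γ ≤ LT.Lone γ * ∫ x, LT.trPow (γ + 1 / 2) (W x) := by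
  choose g hg hE using fun j => (hl j).2
  have hH : H1 (fun x => (of fun i j => ψ j x i : Matrix (Fin m) (Fin N) ℂ))
      fun x => of fun i j => g j x i := by
    have := H1.sum univ fun j => H1.comp ⟨(hg j).1, (hg j).2, (hg j).3⟩ (colL (n := Fin N) j)
    convert this using 2 with x x <;>
    · ext i k
      rw [Matrix.sum_apply]
      erw [sum_congr rfl fun c _ => colL_apply c _ i k]
      simp
  have hWm : AEStronglyMeasurable W volume := by
    have : W = fun x => ∑ i, ∑ j, W x i j • single i j (1 : ℂ) := by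
      funext x
      conv_lhs => rw [matrix_eq_sum_single (W x)]
      simp
    rw [this]
    refine Finset.aestronglyMeasurable_fun_sum _ fun i _ =>
      Finset.aestronglyMeasurable_fun_sum _ fun j _ => ?_
    exact (hW.1 i j).aestronglyMeasurable.smul_const _
  have e1 : γ - 1 / 2 + 1 = γ + 1 / 2 := by ring
  have hWi : Integrable fun x => rt (fc (· ^ (γ - 1 / 2 + 1)) (W x)) := by rw [e1]; exact hW.3
  have := upper hH hWm hW.2 (q := γ - 1 / 2) (by linarith) (by linarith) hWi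
    (by
      ext i j
      rw [int_entry (M := fun x => (of fun i j => ψ j x i : Matrix (Fin m) (Fin N) ℂ)ᴴ *
        of fun i j => ψ j x i) (int_L2 ctL hH.mem hH.mem), one_apply, ← ho]
      rfl)
    (e := fun j => -lam j) (fun j => neg_pos.2 (hl j).1)
    (by
      ext i j
      rw [Matrix.sub_apply, int_entry (M := fun x =>
        (of fun i j => g j x i : Matrix (Fin m) (Fin N) ℂ)ᴴ * of fun i j => g j x i)
        (int_L2 ctL hH.mem' hH.mem'),
        int_entry (int_W hH hWm hW.2 (by linarith) hWi)]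
      have := hE j (ψ i) (g i) (hg i)
      rw [ho] at this
      have e2 : ∀ x, ((of fun i j => ψ j x i : Matrix (Fin m) (Fin N) ℂ)ᴴ * W x *
          (of fun i j => ψ j x i : Matrix (Fin m) (Fin N) ℂ)) i j =
          star (ψ i x) ⬝ᵥ (W x *ᵥ ψ j x) := fun x => by
        rw [Matrix.mul_assoc]; rfl
      simp only [e2]
      have e3 : cj 1 (fun j => -lam j) i j = -(lam j * if i = j then 1 else 0) := by
        by_cases h : i = j <;> simp [cj, diagonal_apply, h]
      rw [e3, ← this, neg_sub]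
      rfl)
  rw [LL_eq h1, e1, sub_add_cancel] at this
  refine le_trans (le_of_eq (sum_congr rfl fun j _ => ?_)) this
  rw [abs_of_neg (hl j).1]

theorem L_le {m : ℕ} {γ : ℝ} (h1 : 1 / 2 < γ) (h2 : γ < 3 / 2) :
    LT.L γ m ≤ ENNReal.ofReal (LT.Lone γ) := by
  refine iSup_le fun W => iSup_le fun hW => iSup_le fun h0 => ?_
  have hL : 0 ≤ LT.Lone γ := by
    rw [← LL_eq h1]
    have := B0_pos (show 0 < γ - 1 / 2 by linarith)
    have : 0 < γ - 1 / 2 := by linarith
    unfold LL; positivity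
  refine ENNReal.div_le_of_le_mul ?_
  rw [← ENNReal.ofReal_mul hL]
  exact iSup_le fun N => iSup_le fun lam => iSup_le fun ψ => iSup_le fun hl => iSup_le fun ho =>
    ENNReal.ofReal_le_ofReal (sum_le h1 h2 hW lam ψ hl ho)

end Vale.Agent.P371
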