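import Vale.Agent.P371.HJ
import Vale.Agent.P371.Brouwer

namespace Vale.Agent.P371

open Matrix Finset MeasureTheory Filter Topology
open scoped ComplexOrder NNReal

lemma param_ode {E P : Type*} [NormedAddCommGroup E] [NormedSpace ℝ E] [CompleteSpace E]
    [TopologicalSpace P] (v : P → ℝ → E → E) {a b : ℝ} (hab : a ≤ b) (C : ℝ≥0)
    (hL : ∀ k t, LipschitzWith C (v k t)) (hc : ∀ k x, Continuous fun t => v k t x)
    (hb : ∀ k, ∃ M : ℝ≥0, ∀ t ∈ Set.Icc a b, ∀ x, ‖v k t x‖ ≤ M)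
    (hp : ∀ k₀, ∀ ε > 0, ∀ᶠ k in 𝓝 k₀, ∀ t ∈ Set.Icc a b, ∀ x, dist (v k t x) (v k₀ t x) ≤ ε) :
    ∃ A : P → ℝ → E, (∀ k, A k a = 0 ∧ ∀ t ∈ Set.Icc a b,
      HasDerivWithinAt (A k) (v k t (A k t)) (Set.Icc a b) t) ∧ Continuous fun k => A k b := by
  have ex : ∀ k, ∃ A : ℝ → E, A a = 0 ∧ ∀ t ∈ Set.Icc a b,
      HasDerivWithinAt A (v k t (A t)) (Set.Icc a b) t := by
    intro k
    obtain ⟨M, hM⟩ := hb k
    have : IsPicardLindelof (v k) (⟨a, le_rfl, hab⟩ : Set.Icc a b) 0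
        (M * ⟨b - a, sub_nonneg.2 hab⟩) 0 M C :=
      ⟨fun t _ => (hL k t).lipschitzOnWith, fun x _ => (hc k x).continuousOn,
        fun t ht x _ => hM t ht x, by simp [hab]; rfl⟩
    exact this.exists_eq_forall_mem_Icc_hasDerivWithinAt₀
  choose A hA using ex
  refine ⟨A, hA, continuous_iff_continuousAt.2 fun k₀ => Metric.tendsto_nhds.2 fun ε hε => ?_⟩
  have h1 : ∀ᶠ e in 𝓝[>] (0 : ℝ), gronwallBound 0 C e (b - a) < ε := by
    have := (gronwallBound_continuous_ε 0 C (b - a)).tendsto 0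
    rw [gronwallBound_ε0_δ0] at this
    exact nhdsWithin_le_nhds (this.eventually (gt_mem_nhds hε))
  obtain ⟨e, he, he0⟩ := (h1.and self_mem_nhdsWithin).exists
  filter_upwards [hp k₀ e he0] with k hk
  have d : ∀ k, ∀ t ∈ Set.Ico a b, HasDerivWithinAt (A k) (v k t (A k t)) (Set.Ici t) t :=
    fun k t ht => ((hA k).2 t (Set.Ico_subset_Icc_self ht)).mono_of_mem_nhdsWithin
      (mem_of_superset (Icc_mem_nhdsGE ht.2) (Set.Icc_subset_Icc_left ht.1))
  have := dist_le_of_approx_trajectories_ODE (hL k₀) (εf := e) (εg := 0) (δ := 0)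
    (fun t ht => ((hA k).2 t ht).continuousWithinAt) (d k)
    (fun t ht => hk t (Set.Ico_subset_Icc_self ht) _)
    (fun t ht => ((hA k₀).2 t ht).continuousWithinAt) (d k₀) (fun t ht => by simp)
    (by simp [(hA _).1]) b ⟨hab, le_rfl⟩
  rw [add_zero] at this
  exact this.trans_lt he

variable {n : Type*} [Fintype n] [DecidableEq n]
open scoped Matrix.Norms.Frobenius

noncomputable def herm (X : Matrix n n ℂ) : Matrix n n ℂ := (1 / 2 : ℝ) • (X + Xᴴ)

omit [Fintype n] [DecidableEq n] in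
lemma herm_herm (X : Matrix n n ℂ) : (herm X)ᴴ = herm X := by
  simp [herm, conjTranspose_smul, add_comm]

omit [Fintype n] [DecidableEq n] in
lemma herm_of {X : Matrix n n ℂ} (h : Xᴴ = X) : herm X = X := by
  rw [herm, h, ← two_smul ℝ X, smul_smul]; simp

lemma norm_herm_sub (X Y : Matrix n n ℂ) : ‖herm X - herm Y‖ ≤ ‖X - Y‖ := by
  have : herm X - herm Y = (1 / 2 : ℝ) • ((X - Y) + (X - Y)ᴴ) := by
    rw [herm, herm, ← smul_sub, conjTranspose_sub]; congr 1; abel
  rw [this, norm_smul]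
  have h := norm_add_le (X - Y) (X - Y)ᴴ
  rw [frobenius_norm_conjTranspose] at h
  rw [Real.norm_of_nonneg (by norm_num)]; linarith

omit [Fintype n] [DecidableEq n] in
lemma continuous_herm : Continuous (herm : Matrix n n ℂ → Matrix n n ℂ) := by
  unfold herm; fun_prop

noncomputable def cl (R t : ℝ) : ℝ := min (max t 0) R
noncomputable def gg (R : ℝ) (X : Matrix n n ℂ) : Matrix n n ℂ := fc (cl R) (herm X)

lemma cl_mem {R : ℝ} (hR : 0 ≤ R) (t : ℝ) : 0 ≤ cl R t ∧ cl R t ≤ R :=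
  ⟨le_min (le_max_right _ _) hR, min_le_right _ _⟩

lemma gg_psd {R : ℝ} (hR : 0 ≤ R) (X : Matrix n n ℂ) : (gg R X).PosSemidef := by
  obtain ⟨V, d, hV, e⟩ := spec (herm_herm X)
  rw [gg, e, fc_cj hV]
  exact psd_cj _ fun i => (cl_mem hR _).1

lemma gg_norm {R : ℝ} (hR : 0 ≤ R) (X : Matrix n n ℂ) : ‖gg R X‖ ≤ Fintype.card n * R := by
  refine (norm_le_rt (gg_psd hR X)).trans ?_
  obtain ⟨V, d, hV, e⟩ := spec (herm_herm X)
  rw [gg, e, fc_cj hV, rt_cj hV]
  simpa using sum_le_sum (s := univ) fun i _ => (cl_mem hR (d i)).2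

lemma gg_lip (R : ℝ) (X Y : Matrix n n ℂ) : ‖gg R X - gg R Y‖ ≤ ‖X - Y‖ := by
  have := fc_sub_le (herm_herm X) (herm_herm Y) (f := cl R) (ε := 0) (C := 1) fun x y _ _ => by
    have h1 := abs_min_sub_min_le_max (max x 0) R (max y 0) R
    have h2 := abs_max_sub_max_le_abs x y 0
    rw [sub_self, abs_zero, max_eq_left (abs_nonneg (max x 0 - max y 0))] at h1
    rw [zero_add, one_mul]
    exact sq_le_sq.2 (h1.trans h2)
  rw [mul_zero, zero_add, one_mul] at this
  exact (pow_le_pow_left₀ (norm_nonneg _) · 2) (norm_herm_sub X Y) |> this.trans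
    |> (abs_le_of_sq_le_sq' · (norm_nonneg _)) |>.2

lemma gg_eq {R : ℝ} {X : Matrix n n ℂ} (hX : X.PosSemidef) (h : rt X ≤ R) : gg R X = X := by
  obtain ⟨V, d, hV, rfl⟩ := spec (X := X) hX.isHermitian
  have hd := (psd_cj_iff hV).1 hX
  rw [gg, herm_of (cj_herm _ _), fc_cj hV]
  refine cj_congr _ fun i => ?_
  rw [rt_cj hV] at h
  rw [cl, max_eq_left (hd i), min_eq_left]
  exact (single_le_sum (fun i _ => hd i) (mem_univ i)).trans h

lemma continuous_gg (R : ℝ) : Continuous (gg R : Matrix n n ℂ → Matrix n n ℂ) :=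
  continuous_fc (by unfold cl; fun_prop) continuous_herm herm_herm

/-- Jordan product -/
noncomputable def JJ (X Y : Matrix n n ℂ) : Matrix n n ℂ := (1 / 2 : ℝ) • (X * Y + Y * X)

omit [DecidableEq n] in
lemma JJ_comm (X Y : Matrix n n ℂ) : JJ X Y = JJ Y X := by rw [JJ, JJ, add_comm]

lemma JJ_norm (X Y : Matrix n n ℂ) : ‖JJ X Y‖ ≤ ‖X‖ * ‖Y‖ := by
  rw [JJ, norm_smul]
  have := norm_add_le (X * Y) (Y * X)
  have := norm_mul_le X Y
  have := norm_mul_le Y X
  norm_num; linarith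

lemma JJ_sub (X Y X' Y' : Matrix n n ℂ) :
    ‖JJ X Y - JJ X' Y'‖ ≤ ‖X - X'‖ * ‖Y‖ + ‖X'‖ * ‖Y - Y'‖ := by
  have : JJ X Y - JJ X' Y' = JJ (X - X') Y + JJ X' (Y - Y') := by
    simp only [JJ, ← smul_add, ← smul_sub, Matrix.mul_sub, Matrix.sub_mul]; congr 1; abel
  rw [this]
  exact (norm_add_le _ _).trans (add_le_add (JJ_norm _ _) (JJ_norm _ _))

omit [DecidableEq n] in
lemma rt_JJ (X Y : Matrix n n ℂ) : rt (JJ X Y) = rt (X * Y) := by
  rw [JJ, rt_smul, rt_add, rt_comm Y]; ring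

omit [DecidableEq n] in
lemma JJ_herm {X Y : Matrix n n ℂ} (hX : Xᴴ = X) (hY : Yᴴ = Y) : (JJ X Y)ᴴ = JJ X Y := by
  simp [JJ, conjTranspose_smul, hX, hY, add_comm]

lemma neg_taylor : ∀ x ∈ (Set.univ : Set ℝ), ∀ y ∈ (Set.univ : Set ℝ),
    |min y 0 ^ 2 - min x 0 ^ 2 - 2 * min x 0 * (y - x)| ≤ 1 * (y - x) ^ 2 := by
  intro x _ y _
  rw [abs_le]
  rcases le_total x 0 with hx | hx <;> rcases le_total y 0 with hy | hy <;>
    simp only [min_eq_left, min_eq_right, hx, hy] <;> constructor <;>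
    nlinarith [sq_nonneg (y - x), sq_nonneg x, sq_nonneg y]

lemma neg_deriv {X : ℝ → Matrix n n ℂ} {I : Set ℝ} {t σ R : ℝ} (hR : 0 ≤ R) (ht : t ∈ I)
    (hh : ∀ u ∈ I, (X u)ᴴ = X u) {P Z : Matrix n n ℂ} (hP : P.PosSemidef)
    (hX : HasDerivWithinAt X (σ • (P - JJ (gg R (X t)) Z)) I t) :
    ∃ c ≤ 0, HasDerivWithinAt (fun u => rt (fc (fun x => min x 0 ^ 2) (X u))) (σ * c) I t := by
  have := hasDeriv_rt_fc neg_taylor ht (fun u hu => by
    obtain ⟨V, d, hV, e⟩ := spec (hh u hu)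
    exact ⟨V, d, hV, e, fun _ => trivial⟩) hX
  refine ⟨_, ?_, this.congr_deriv (by rw [Matrix.mul_smul, rt_smul])⟩
  obtain ⟨V, d, hV, e⟩ := spec (hh t ht)
  have z : ∀ i, 2 * min (d i) 0 * cl R (d i) = 0 := fun i => by
    rcases le_total (d i) 0 with h | h <;> simp [cl, h, hR]
  rw [e, gg, herm_of (cj_herm _ _), fc_cj hV, fc_cj hV, Matrix.mul_sub, JJ, Matrix.mul_smul,
    Matrix.mul_add, rt_sub, rt_smul, rt_add, ← Matrix.mul_assoc, ← Matrix.mul_assoc,
    rt_comm (_ * Z) (cj V _), ← Matrix.mul_assoc, cj_mul hV, cj_mul hV, cj_congr V z,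
    cj_congr V (e := fun _ => 0) fun i => (mul_comm _ _).trans (z i), cj_const hV]
  have := rt_mul_nonneg (psd_cj V (d := fun i => -(2 * min (d i) 0)) fun i => by
    have := min_le_right (d i) 0; linarith) hP
  rw [← cj_neg, Matrix.neg_mul, rt_neg] at this
  simp only [zero_smul, Matrix.zero_mul, rt_zero]
  linarith

lemma psd_of_neg {X : Matrix n n ℂ} (hX : Xᴴ = X) (h : rt (fc (fun x => min x 0 ^ 2) X) ≤ 0) :
    X.PosSemidef := by
  obtain ⟨V, d, hV, rfl⟩ := spec hX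
  rw [fc_cj hV, rt_cj hV] at h
  refine psd_cj _ fun i => ?_
  have := (single_le_sum (f := fun i => min (d i) 0 ^ 2) (fun i _ => sq_nonneg _)
    (mem_univ i)).trans h
  have h2 : min (d i) 0 = 0 := by nlinarith
  exact min_eq_right_iff.1 h2

lemma neg_zero' : rt (fc (fun x => min x 0 ^ 2) (0 : Matrix n n ℂ)) = 0 := by
  have hU : Un (1 : Matrix n n ℂ) := ⟨by simp, by simp⟩
  have : (0 : Matrix n n ℂ) = cj 1 fun _ => 0 := by rw [cj_const hU, zero_smul]
  rw [this, fc_cj hU, rt_cj hU]; simp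

theorem bvp {a b : ℝ} (hab : a ≤ b) (Wt : Matrix n n ℂ → ℝ → Matrix n n ℂ)
    (hc : Continuous fun p : Matrix n n ℂ × ℝ => Wt p.1 p.2) (hp : ∀ K x, (Wt K x).PosSemidef)
    {R : ℝ} (hT : ∀ K, ∫ x in a..b, rt (Wt K x) ≤ R) :
    ∃ U κ Y, Un U ∧ (∀ j, 0 ≤ κ j) ∧ Path U κ a b Y (Wt (cj U κ)) := by
  have hc' : ∀ K, Continuous (Wt K) := fun K => hc.comp (Continuous.prodMk_right K)
  have hR : 0 ≤ R := (intervalIntegral.integral_nonneg hab fun x _ => rt_nonneg (hp 0 x)).trans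
    (hT 0)
  set M : ℝ := Fintype.card n * R with hM
  have hM0 : 0 ≤ M := by positivity
  have lip : ∀ K K' A A' : Matrix n n ℂ, ‖JJ (gg R A) (gg R ((2 : ℝ) • K - A)) -
      JJ (gg R A') (gg R ((2 : ℝ) • K' - A'))‖ ≤ 2 * M * ‖A - A'‖ + 2 * M * ‖K - K'‖ := by
    intro K K' A A'
    refine (JJ_sub _ _ _ _).trans ?_
    have h1 := gg_lip R A A'
    have h2 := gg_lip R ((2 : ℝ) • K - A) ((2 : ℝ) • K' - A')
    have h3 : ‖((2 : ℝ) • K - A) - ((2 : ℝ) • K' - A')‖ ≤ 2 * ‖K - K'‖ + ‖A - A'‖ := by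
      rw [show ((2 : ℝ) • K - A) - ((2 : ℝ) • K' - A') = (2 : ℝ) • (K - K') - (A - A') by
        rw [smul_sub]; abel]
      refine (norm_sub_le _ _).trans ?_
      rw [norm_smul]; simp
    calc _ ≤ ‖A - A'‖ * M + M * (2 * ‖K - K'‖ + ‖A - A'‖) := by
          gcongr
          exacts [gg_norm hR _, gg_norm hR _, h2.trans h3]
      _ = _ := by ring
  obtain ⟨A, hA, hAc⟩ := param_ode (E := Matrix n n ℂ)
    (fun K t A => Wt K t - JJ (gg R A) (gg R ((2 : ℝ) • K - A))) hab ⟨2 * M, by positivity⟩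
    (fun K t => LipschitzWith.of_dist_le_mul fun A A' => by
      rw [dist_eq_norm, dist_eq_norm, sub_sub_sub_cancel_left, norm_sub_rev]
      have := lip K K A A'
      rwa [sub_self K, norm_zero, mul_zero, add_zero] at this)
    (fun K A => (hc' K).sub continuous_const)
    (fun K => by
      obtain ⟨B, hB⟩ := isCompact_Icc.exists_bound_of_continuousOn
        ((hc' K).continuousOn (s := Set.Icc a b))
      refine ⟨⟨|B| + M * M, by positivity⟩, fun t ht A => (norm_sub_le _ _).trans ?_⟩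
      refine add_le_add ((hB t ht).trans (le_abs_self _)) ((JJ_norm _ _).trans ?_)
      gcongr <;> exact gg_norm hR _)
    (fun K₀ ε hε => by
      have e1 : ∀ᶠ K in 𝓝 K₀, ∀ t ∈ Set.Icc a b, ‖Wt K t - Wt K₀ t‖ < ε / 2 := by
        refine isCompact_Icc.eventually_forall_of_forall_eventually fun t _ => ?_
        have : Continuous fun z : Matrix n n ℂ × ℝ => ‖Wt z.1 z.2 - Wt K₀ z.2‖ :=
          (hc.sub ((hc' K₀).comp continuous_snd)).norm
        exact (this.tendsto (K₀, t)).eventually (gt_mem_nhds (by simpa using hε))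
      have e2 : ∀ᶠ K in 𝓝 K₀, 2 * M * ‖K - K₀‖ < ε / 2 := by
        have : Continuous fun K : Matrix n n ℂ => 2 * M * ‖K - K₀‖ := by fun_prop
        exact (this.tendsto K₀).eventually (gt_mem_nhds (by simpa using hε))
      filter_upwards [e1, e2] with K h1 h2 t ht A
      rw [dist_eq_norm, sub_sub_sub_comm]
      have := lip K K₀ A A
      rw [sub_self, norm_zero] at this
      refine (norm_sub_le _ _).trans ?_
      linarith [h1 t ht])
  have gh : ∀ X : Matrix n n ℂ, (gg R X)ᴴ = gg R X := fun X => (gg_psd hR X).isHermitian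
  have cA : ∀ K, ContinuousOn (A K) (Set.Icc a b) := fun K t ht =>
    ((hA K).2 t ht).continuousWithinAt
  have hh : ∀ K, ∀ t ∈ Set.Icc a b, (A K t)ᴴ = A K t := by
    intro K t ht
    have := (convex_Icc a b).norm_image_sub_le_of_norm_hasDerivWithin_le (C := 0)
      (f := fun t => star (A K t) - A K t) (f' := fun _ => 0) (fun x hx => by
        refine (((hA K).2 x hx).star.fun_sub ((hA K).2 x hx)).congr_deriv ?_
        rw [star_eq_conjTranspose, conjTranspose_sub, (hp K x).isHermitian.eq,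
          JJ_herm (gh _) (gh _), sub_self]) (by simp) ⟨le_rfl, hab⟩ ht
    simpa [(hA K).1, sub_eq_zero, star_eq_conjTranspose] using this
  have pA : ∀ K, ∀ t ∈ Set.Icc a b, (A K t).PosSemidef := by
    intro K t ht
    have hd := fun x (hx : x ∈ Set.Icc a b) => neg_deriv (σ := 1) hR hx (hh K) (hp K x)
      (by rw [one_smul]; exact (hA K).2 x hx)
    choose! c hc0 hc1 using hd
    have := antitoneOn_of_hasDerivWithinAt_nonpos (convex_Icc a b)
      (fun x hx => (hc1 x hx).continuousWithinAt)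
      (fun x hx => (hc1 x (interior_subset hx)).mono interior_subset)
      (fun x hx => by simpa using hc0 x (interior_subset hx)) ⟨le_rfl, hab⟩ ht ht.1
    simp only [(hA K).1, neg_zero'] at this
    exact psd_of_neg (hh K t ht) this
  have tr : ∀ K, ∀ s ∈ Set.Icc a b, ∀ t ∈ Set.Icc a b, s ≤ t → rt (A K t) - rt (A K s) ≤ R := by
    intro K s hs t ht hst
    have sub : Set.Icc s t ⊆ Set.Icc a b := Set.Icc_subset_Icc hs.1 ht.2
    have c1 : ContinuousOn (fun x => rt (Wt K x - JJ (gg R (A K x)) (gg R ((2 : ℝ) • K - A K x))))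
        (Set.Icc s t) := by
      have g1 := (continuous_gg R).comp_continuousOn ((cA K).mono sub)
      have g2 := (continuous_gg R).comp_continuousOn
        ((continuousOn_const (c := (2 : ℝ) • K)).sub ((cA K).mono sub))
      exact continuous_rt.comp_continuousOn ((hc' K).continuousOn.sub
        (((g1.mul g2).add (g2.mul g1)).const_smul (1 / 2 : ℝ)))
    have c2 := continuous_rt.comp (hc' K)
    rw [← ftc hst (f := fun x => rt (A K x)) (fun x hx =>
      (rtL (n := n)).hasFDerivAt.comp_hasDerivWithinAt x (((hA K).2 x (sub hx)).mono sub)) c1]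
    refine le_trans (intervalIntegral.integral_mono_on hst (c1.intervalIntegrable_of_Icc hst)
      (c2.intervalIntegrable _ _) fun x hx => ?_) (le_trans ?_ (hT K))
    · have := rt_mul_nonneg (gg_psd hR (A K x)) (gg_psd hR ((2 : ℝ) • K - A K x))
      change rt (Wt K x - _) ≤ rt (Wt K x)
      rw [rt_sub, rt_JJ]; linarith
    · exact intervalIntegral.integral_mono_interval hs.1 hst ht.2
        (Eventually.of_forall fun x => rt_nonneg (hp K x)) (c2.intervalIntegrable _ _)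
  have trA : ∀ K, ∀ t ∈ Set.Icc a b, rt (A K t) ≤ R := fun K t ht => by
    simpa [(hA K).1, rt_zero] using tr K a ⟨le_rfl, hab⟩ t ht ht.1
  obtain ⟨K, hK⟩ := brouwer (fun K : Matrix n n ℂ => (1 / 2 : ℝ) • A K b) (hAc.const_smul (1 / 2 : ℝ)) R
    fun K => by
      have := (norm_le_rt (pA K b ⟨hab, le_rfl⟩)).trans (trA K b ⟨hab, le_rfl⟩)
      rw [norm_smul]; norm_num; linarith
  have hK2 : (2 : ℝ) • K = A K b := by
    conv_lhs => rw [← hK]
    rw [smul_smul]; simp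
  have hKp : K.PosSemidef := by
    rw [← hK]; exact (pA K b ⟨hab, le_rfl⟩).smul (by norm_num)
  have hB : ∀ t ∈ Set.Icc a b, ((2 : ℝ) • K - A K t)ᴴ = (2 : ℝ) • K - A K t := fun t ht => by
    rw [hK2, conjTranspose_sub, hh K t ht, hh K b ⟨hab, le_rfl⟩]
  have pB : ∀ t ∈ Set.Icc a b, ((2 : ℝ) • K - A K t).PosSemidef := by
    intro t ht
    have hd := fun x (hx : x ∈ Set.Icc a b) => neg_deriv (σ := -1) hR hx hB (hp K x)
      (Z := gg R (A K x))
      (by rw [neg_one_smul, JJ_comm]; exact ((hA K).2 x hx).const_sub _)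
    choose! c hc0 hc1 using hd
    have := monotoneOn_of_hasDerivWithinAt_nonneg (convex_Icc a b)
      (fun x hx => (hc1 x hx).continuousWithinAt)
      (fun x hx => (hc1 x (interior_subset hx)).mono interior_subset)
      (fun x hx => by simpa using hc0 x (interior_subset hx)) ht ⟨hab, le_rfl⟩ ht.2
    simp only [hK2, sub_self, neg_zero'] at this
    exact psd_of_neg (hB t ht) (hK2 ▸ this)
  obtain ⟨U, κ, hU, e⟩ := spec (X := K) hKp.isHermitian
  refine ⟨U, κ, fun t => A K t - K, hU, (psd_cj_iff hU).1 (e ▸ hKp), ?_⟩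
  rw [← e]
  have e1 : ∀ t, K - (A K t - K) = (2 : ℝ) • K - A K t := fun t => by rw [two_smul]; abel
  refine ⟨(hc' K).continuousOn, fun x _ => hp K x, fun x hx => ⟨?_, ?_⟩, fun x hx => ?_, ?_, ?_⟩
  · rw [← e, e1]; exact pB x hx
  · rw [← e, add_sub_cancel]; exact pA K x hx
  · refine (((hA K).2 x hx).sub_const K).congr_deriv ?_
    rw [gg_eq (pA K x hx) (trA K x hx), gg_eq (pB x hx) (by
      rw [hK2, rt_sub]; exact tr K x hx b ⟨hab, le_rfl⟩ hx.2), ← e, JJ]
    congr 1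
    simp only [Matrix.mul_sub, Matrix.sub_mul, two_smul, Matrix.mul_add, Matrix.add_mul]
    module
  · rw [(hA K).1, zero_sub, ← e]
  · rw [← hK2, two_smul, add_sub_cancel_right, ← e]

end Vale.Agent.P371
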