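import Vale.Agent.P371.ODE
import Vale.Agent.P371.H1

namespace Vale.Agent.P371

open Matrix Finset MeasureTheory Filter Topology
open scoped ComplexOrder Matrix.Norms.Frobenius

variable {l m n : Type*} [Fintype l] [DecidableEq l] [Fintype m] [DecidableEq m] [Fintype n]
  [DecidableEq n]

abbrev Intg {E : Type*} [NormedAddCommGroup E] (f : ℝ → E) : Prop := Integrable f volume

noncomputable def mulL : Matrix l m ℂ →L[ℝ] Matrix m n ℂ →L[ℝ] Matrix l n ℂ :=
  LinearMap.mkContinuous₂ (LinearMap.mk₂ ℝ (fun X Y => X * Y) Matrix.add_mul Matrix.smul_mul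
    Matrix.mul_add fun c X Y => Matrix.mul_smul X c Y) 1 fun X Y => by
      simpa using frobenius_norm_mul X Y

noncomputable def ctL : Matrix m l ℂ →L[ℝ] Matrix m n ℂ →L[ℝ] Matrix l n ℂ :=
  LinearMap.mkContinuous₂ (LinearMap.mk₂ ℝ (fun X Y => Xᴴ * Y)
    (fun X Y Z => by rw [conjTranspose_add, Matrix.add_mul])
    (fun c X Y => by rw [conjTranspose_smul, star_trivial, Matrix.smul_mul])
    (fun X Y Z => Matrix.mul_add _ _ _) fun c X Y => Matrix.mul_smul _ c Y) 1 fun X Y => by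
      simpa [frobenius_norm_conjTranspose] using frobenius_norm_mul Xᴴ Y

noncomputable def ipL : Matrix m n ℂ →L[ℝ] Matrix m n ℂ →L[ℝ] ℝ :=
  (ContinuousLinearMap.compL ℝ _ _ _ rtL).comp ctL

noncomputable def mulR (Z : Matrix m n ℂ) : Matrix l m ℂ →L[ℝ] Matrix l n ℂ :=
  LinearMap.toContinuousLinearMap
    { toFun := fun X => X * Z, map_add' := fun X Y => Matrix.add_mul X Y Z,
      map_smul' := fun c X => Matrix.smul_mul c X Z }

lemma positivity {F F' : ℝ → Matrix m n ℂ} (hF : H1 F F') {U : Matrix n n ℂ} {κ : n → ℝ} {a b : ℝ}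
    (hab : a ≤ b) {Y W : ℝ → Matrix n n ℂ} (hP : Path U κ a b Y W) :
    (∫ x in a..b, rt ((F x)ᴴ * F x * W x)) - (∫ x in a..b, rt ((F x)ᴴ * F x * (cj U κ * cj U κ))) -
      (rt ((F a)ᴴ * F a * cj U κ) + rt ((F b)ᴴ * F b * cj U κ)) ≤
      ∫ x in a..b, rt ((F' x)ᴴ * F' x) := by
  have p1 := primOn_of_deriv hP.der (hP.cW.sub (continuousOn_const.sub (hP.cY.mul hP.cY)))
  have p2 := PrimOn.mul mulL hab (hF.primOn a b) p1
  have p3 := PrimOn.mul ipL hab (hF.primOn a b) p2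
  have e := p3.2 b ⟨hab, le_rfl⟩
  beta_reduce at e
  have i3 := (intervalIntegrable_iff_integrableOn_Icc_of_le hab).2 p3.1
  have cP : Continuous fun x => (F x)ᴴ * F x := hF.cont.matrix_conjTranspose.matrix_mul hF.cont
  have i1 : IntervalIntegrable (fun x => rt ((F x)ᴴ * F x * W x)) volume a b :=
    (continuous_rt.comp_continuousOn (cP.continuousOn.mul hP.cW)).intervalIntegrable_of_Icc hab
  have i2 : IntervalIntegrable (fun x => rt ((F x)ᴴ * F x * (cj U κ * cj U κ))) volume a b :=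
    (continuous_rt.comp (cP.mul continuous_const)).intervalIntegrable _ _
  have e' : rt ((F a)ᴴ * F a * cj U κ) + rt ((F b)ᴴ * F b * cj U κ) =
      ipL (F b) (mulL (F b) (Y b)) - ipL (F a) (mulL (F a) (Y a)) := by
    change _ = rt ((F b)ᴴ * (F b * Y b)) - rt ((F a)ᴴ * (F a * Y a))
    rw [hP.ya, hP.yb, Matrix.mul_neg, Matrix.mul_neg, rt_neg]
    simp only [Matrix.mul_assoc]; ring
  rw [e'.trans e, ← intervalIntegral.integral_sub i1 i2, ← intervalIntegral.integral_sub (i1.sub i2) i3]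
  refine intervalIntegral.integral_mono_on hab ((i1.sub i2).sub i3)
    (int_L2 ipL hF.mem' hF.mem').intervalIntegrable fun x hx => ?_
  change _ - (rt ((F' x)ᴴ * (F x * Y x)) + rt ((F x)ᴴ * (F' x * Y x +
    F x * (W x - (cj U κ * cj U κ - Y x * Y x))))) ≤ _
  have p := rt_ctm_nonneg (F' x + F x * Y x)
  have hY := (hP.adm x hx).herm
  simp only [conjTranspose_add, conjTranspose_mul, hY, Matrix.mul_add, Matrix.add_mul, rt_add,
    Matrix.mul_sub, rt_sub, Matrix.mul_assoc] at p ⊢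
  rw [rt_comm (Y x), rt_comm (Y x)] at p
  simp only [Matrix.mul_assoc] at p
  linarith

lemma young_rect (F : Matrix m n ℂ) {V : Matrix m m ℂ} {U : Matrix n n ℂ} (hV : Un V) (hU : Un U)
    {w a : m → ℝ} {π b : n → ℝ} (hP : Fᴴ * F = cj U π) (ha : ∀ k, 0 ≤ a k) (hb : ∀ i, 0 ≤ b i)
    (h : ∀ k i, w k * π i ≤ a k + b i) : rt (Fᴴ * cj V w * F) ≤ ∑ k, a k + ∑ i, b i := by
  have hπ : ∀ i, 0 ≤ π i := (psd_cj_iff hU).1 (hP ▸ posSemidef_conjTranspose_mul_self F)
  have col : ∀ i, ∑ k, ‖(Vᴴ * F * U) k i‖ ^ 2 = π i := fun i => by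
    have := rt_rect V U F (fun _ => 1) (Pi.single i 1)
    rw [cj_one hV, Matrix.mul_one, hP, cj_mul hU, rt_cj hU] at this
    simpa [Pi.single_apply, ite_mul] using this.symm
  have e0 := rt_rect V U F w fun _ => 1
  have e1 := rt_rect V U F a fun i => (π i)⁻¹
  have e2 := rt_rect V U F (fun _ => 1) fun i => b i * (π i)⁻¹
  rw [cj_one hU, Matrix.mul_one] at e0
  rw [cj_one hV, Matrix.mul_one, hP, cj_mul hU, rt_cj hU] at e2
  have h2 : ∑ i, π i * (b i * (π i)⁻¹) ≤ ∑ i, b i := sum_le_sum fun i _ => by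
    rw [mul_left_comm]
    exact mul_le_of_le_one_right (hb i) mul_inv_le_one
  have h1 : rt (Fᴴ * cj V a * F * cj U fun i => (π i)⁻¹) ≤ ∑ k, a k := by
    set Q := F * (cj U fun i => (π i)⁻¹) * Fᴴ with hQ
    have q1 : Qᴴ = Q := by simp only [hQ, conjTranspose_mul, cj_herm, conjTranspose_conjTranspose,
      Matrix.mul_assoc]
    have q2 : Q * Q = Q := by
      calc _ = F * (cj U (fun i => (π i)⁻¹) * (Fᴴ * F) * cj U fun i => (π i)⁻¹) * Fᴴ := by
            simp only [hQ, Matrix.mul_assoc]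
        _ = _ := by
          rw [hP, cj_mul hU, cj_mul hU, hQ]
          congr 2
          exact cj_congr _ fun i => by
            rcases eq_or_ne (π i) 0 with h | h <;> simp [h]
    have q3 := posSemidef_conjTranspose_mul_self (1 - Q)
    rw [conjTranspose_sub, q1, conjTranspose_one, Matrix.sub_mul, Matrix.mul_sub, Matrix.mul_sub,
      q2, Matrix.one_mul, Matrix.one_mul, Matrix.mul_one, sub_self, sub_zero] at q3
    have := rt_mul_nonneg (psd_cj V ha) q3
    rw [Matrix.mul_sub, rt_sub, Matrix.mul_one, rt_cj hV] at this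
    have e : rt (Fᴴ * cj V a * F * cj U fun i => (π i)⁻¹) = rt (cj V a * Q) := by
      rw [Matrix.mul_assoc, Matrix.mul_assoc, rt_comm]; simp only [hQ, Matrix.mul_assoc]
    linarith
  refine le_trans ?_ (add_le_add h1 h2)
  rw [e0, e1, e2, ← sum_add_distrib]
  refine sum_le_sum fun k _ => ?_
  rw [← sum_add_distrib]
  refine sum_le_sum fun i _ => ?_
  rcases (hπ i).eq_or_lt with h0 | h0
  · have : ‖(Vᴴ * F * U) k i‖ ^ 2 ≤ π i := by
      rw [← col i]
      exact single_le_sum (f := fun k => ‖(Vᴴ * F * U) k i‖ ^ 2) (fun _ _ => sq_nonneg _)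
        (mem_univ k)
    have : ‖(Vᴴ * F * U) k i‖ ^ 2 = 0 := le_antisymm (h0 ▸ this) (sq_nonneg _)
    simp [this]
  · rw [← add_mul]
    refine mul_le_mul_of_nonneg_right ?_ (sq_nonneg _)
    rw [mul_one, one_mul, ← add_mul, ← div_eq_mul_inv, le_div_iff₀ h0]
    exact h k i

lemma young_scal {q μ w π : ℝ} (hq : 0 < q) (hμ : 0 < μ) (hw : 0 ≤ w) (hπ : 0 ≤ π) :
    w * π ≤ μ ^ (-q) / (q + 1) * w ^ (q + 1) + μ * (q / (q + 1)) * π ^ ((q + 1) / q) := by
  have hc : (q + 1).HolderConjugate ((q + 1) / q) := by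
    refine ⟨by field_simp; ring, by positivity, by positivity⟩
  have := Real.young_inequality_of_nonneg (a := w * μ ^ (-q / (q + 1)))
    (b := π * μ ^ (q / (q + 1))) (by positivity) (by positivity) hc
  rw [Real.mul_rpow hw (by positivity), Real.mul_rpow hπ (by positivity), ← Real.rpow_mul hμ.le,
    ← Real.rpow_mul hμ.le, mul_mul_mul_comm, ← Real.rpow_add hμ,
    show -q / (q + 1) + q / (q + 1) = 0 by ring, show -q / (q + 1) * (q + 1) = -q by field_simp,
    show q / (q + 1) * ((q + 1) / q) = 1 by field_simp, Real.rpow_zero, Real.rpow_one,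
    mul_one] at this
  refine this.trans_eq ?_
  field_simp

lemma young_mat (F : Matrix m n ℂ) {W : Matrix m m ℂ} (hW : W.PosSemidef) {q μ : ℝ} (hq : 0 < q)
    (hμ : 0 < μ) : rt (Fᴴ * W * F) ≤ μ ^ (-q) / (q + 1) * rt (fc (· ^ (q + 1)) W) +
      μ * (q / (q + 1)) * rt (fc (· ^ ((q + 1) / q)) (Fᴴ * F)) := by
  obtain ⟨V, w, hV, rfl⟩ := spec (X := W) hW.isHermitian
  have hP := posSemidef_conjTranspose_mul_self F
  obtain ⟨U, π, hU, e⟩ := spec (X := Fᴴ * F) hP.isHermitian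
  have hw := (psd_cj_iff hV).1 hW
  have hπ := (psd_cj_iff hU).1 (e ▸ hP)
  rw [e, fc_cj hV, fc_cj hU, rt_cj hV, rt_cj hU, mul_sum, mul_sum]
  exact young_rect F hV hU e (fun k => by have := hw k; positivity)
    (fun i => by have := hπ i; positivity) fun k i => young_scal hq hμ (hw k) (hπ i)

lemma le_one_add_rpow {t p : ℝ} (ht : 0 ≤ t) (hp : 1 ≤ p) : t ≤ 1 + t ^ p := by
  rcases le_total t 1 with h | h
  · linarith [Real.rpow_nonneg ht p]
  · have := Real.rpow_le_rpow_of_exponent_le h hp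
    rw [Real.rpow_one] at this; linarith

lemma rt_le_pow {W : Matrix m m ℂ} (hW : W.PosSemidef) {p : ℝ} (hp : 1 ≤ p) :
    rt W ≤ Fintype.card m + rt (fc (· ^ p) W) := by
  obtain ⟨V, w, hV, rfl⟩ := spec (X := W) hW.isHermitian
  rw [fc_cj hV, rt_cj hV, rt_cj hV]
  simpa [sum_add_distrib] using sum_le_sum (s := univ) fun i _ =>
    le_one_add_rpow ((psd_cj_iff hV).1 hW i) hp

lemma rt_pow_nonneg {W : Matrix m m ℂ} (hW : W.PosSemidef) (p : ℝ) : 0 ≤ rt (fc (· ^ p) W) := by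
  obtain ⟨V, w, hV, rfl⟩ := spec (X := W) hW.isHermitian
  rw [fc_cj hV, rt_cj hV]
  exact sum_nonneg fun i _ => Real.rpow_nonneg ((psd_cj_iff hV).1 hW i) _

lemma int_W {Ψ G : ℝ → Matrix m n ℂ} (hΨ : H1 Ψ G) {W : ℝ → Matrix m m ℂ}
    (hWm : AEStronglyMeasurable W volume) (hWp : ∀ x, (W x).PosSemidef) {p : ℝ} (hp : 1 ≤ p)
    (hWi : Integrable fun x => rt (fc (· ^ p) (W x))) :
    Intg fun x => (Ψ x)ᴴ * W x * Ψ x := by
  obtain ⟨C, hC⟩ := H1.bil_bdd ipL hΨ hΨ
  have i1 : Integrable fun x => rt ((Ψ x)ᴴ * Ψ x) := int_L2 ipL hΨ.mem hΨ.mem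
  refine ((i1.const_mul (Fintype.card m)).add (hWi.const_mul C)).mono'
    (mulL.aestronglyMeasurable_comp₂ (ctL.aestronglyMeasurable_comp₂ hΨ.mem.1 hWm) hΨ.mem.1)
    (Eventually.of_forall fun x => ?_)
  have h1 : rt ((Ψ x)ᴴ * Ψ x) ≤ C := (le_abs_self _).trans (hC x)
  have h2 := (norm_le_rt (hWp x)).trans (rt_le_pow (hWp x) hp)
  have h3 := rt_pow_nonneg (hWp x) p
  have h4 : ‖(Ψ x)ᴴ * W x * Ψ x‖ ≤ ‖Ψ x‖ * ‖W x‖ * ‖Ψ x‖ := by
    refine (frobenius_norm_mul _ _).trans ?_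
    gcongr
    simpa [frobenius_norm_conjTranspose] using frobenius_norm_mul (Ψ x)ᴴ (W x)
  simp only [Pi.add_apply]
  rw [← norm_sq_eq] at h1 ⊢
  nlinarith [mul_le_mul_of_nonneg_left h2 (sq_nonneg ‖Ψ x‖), mul_le_mul_of_nonneg_right h1 h3]

lemma wt_facts {P : Matrix n n ℂ} (hP : P.PosSemidef) {q μ : ℝ} (hq : 0 < q) (hμ : 0 ≤ μ) :
    (μ • fc (· ^ (1 / q)) P).PosSemidef ∧
    rt (fc (· ^ (q + 1)) (μ • fc (· ^ (1 / q)) P)) = μ ^ (q + 1) * rt (fc (· ^ ((q + 1) / q)) P) ∧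
    rt (P * (μ • fc (· ^ (1 / q)) P)) = μ * rt (fc (· ^ ((q + 1) / q)) P) := by
  obtain ⟨U, π, hU, rfl⟩ := spec (X := P) hP.isHermitian
  have hπ := (psd_cj_iff hU).1 hP
  rw [fc_cj hU, fc_cj hU, cj_smul, fc_cj hU, cj_mul hU, rt_cj hU, rt_cj hU, rt_cj hU, mul_sum,
    mul_sum]
  refine ⟨psd_cj _ fun i => by have := hπ i; positivity, sum_congr rfl fun i _ => ?_,
    sum_congr rfl fun i _ => ?_⟩
  · rw [Real.mul_rpow hμ (Real.rpow_nonneg (hπ i) _), ← Real.rpow_mul (hπ i)]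
    congr 2; ring
  · rw [show (q + 1) / q = 1 + 1 / q by field_simp, Real.rpow_one_add' (hπ i) (by positivity)]
    ring

lemma rt_int (Z : Matrix n n ℂ) {M : ℝ → Matrix n n ℂ} (hM : Intg M) :
    Integrable (fun x => rt (M x * Z)) ∧ ∫ x, rt (M x * Z) = rt ((∫ x, M x) * Z) :=
  ⟨((rtL (n := n)).comp (mulR Z)).integrable_comp hM,
    ((rtL (n := n)).comp (mulR Z)).integral_comp_comm hM⟩

set_option maxHeartbeats 1000000 in
theorem reduce {Ψ G : ℝ → Matrix m n ℂ} (hΨ : H1 Ψ G) {W : ℝ → Matrix m m ℂ}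
    (hWm : AEStronglyMeasurable W volume) (hWp : ∀ x, (W x).PosSemidef) {q : ℝ} (hq : 0 < q)
    (hq1 : q < 1) (hWi : Integrable fun x => rt (fc (· ^ (q + 1)) (W x)))
    (hO : ∫ x, (Ψ x)ᴴ * Ψ x = 1) {E : Matrix n n ℂ}
    (hE : (∫ x, (Ψ x)ᴴ * W x * Ψ x) - ∫ x, (G x)ᴴ * G x = E)
    {r : Matrix n n ℂ → Matrix n n ℂ} (hr : Continuous r) (hrh : ∀ K, (r K)ᴴ = r K) {ρ : ℝ}
    (hρ : ∀ K, ‖r K‖ ≤ ρ) {ε : ℝ} (hε : 0 < ε) :
    ∃ U κ, Un U ∧ (∀ j, 0 ≤ κ j) ∧
      ∑ j, κ j ^ (2 * q + 1) ≤ LL q * (∫ x, rt (fc (· ^ (q + 1)) (W x))) + ε ∧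
      rt (E * (r (cj U κ) * r (cj U κ))) ≤
        rt (cj U κ * cj U κ * (r (cj U κ) * r (cj U κ))) + ε := by
  set Y := ∫ x, rt (fc (· ^ (q + 1)) (W x)) with hY
  have hY0 : 0 ≤ Y := integral_nonneg fun x => rt_pow_nonneg (hWp x) _
  have hL : 0 ≤ LL q := by have := B0_pos hq; unfold LL; positivity
  obtain ⟨η, hη0, hη1, hη2, hη3⟩ : ∃ η : ℝ, 0 < η ∧ η < 1 ∧ LL q * η < ε ∧
      (Y + η) ^ (1 / (q + 1)) * η ^ (q / (q + 1)) < ε / 3 := by
    have c1 : Continuous fun η : ℝ => LL q * η := by fun_prop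
    have c2 : Continuous fun η : ℝ => (Y + η) ^ (1 / (q + 1)) * η ^ (q / (q + 1)) :=
      ((continuous_const.add continuous_id).rpow_const fun _ => Or.inr (by positivity)).mul
        (Real.continuous_rpow_const (by positivity))
    have e1 := (c1.tendsto 0).eventually (gt_mem_nhds (show LL q * 0 < ε by simpa))
    have e2 := (c2.tendsto 0).eventually (gt_mem_nhds (show
      (Y + 0) ^ (1 / (q + 1)) * (0 : ℝ) ^ (q / (q + 1)) < ε / 3 by
        rw [Real.zero_rpow (by positivity)]; linarith))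
    have e3 : ∀ᶠ η in 𝓝 (0 : ℝ), η < 1 := gt_mem_nhds one_pos
    have e4 : ∀ᶠ η in 𝓝[>] (0 : ℝ), 0 < η := self_mem_nhdsWithin
    exact (e4.and (nhdsWithin_le_nhds (e3.and (e1.and e2)))).exists
  have iW := int_W hΨ hWm hWp (by linarith) hWi
  have iΨ : Intg fun x => (Ψ x)ᴴ * Ψ x := int_L2 ctL hΨ.mem hΨ.mem
  have iG : Intg fun x => (G x)ᴴ * G x := int_L2 ctL hΨ.mem' hΨ.mem'
  have iτ : Integrable fun x => rt ((Ψ x)ᴴ * W x * Ψ x) := rtL.integrable_comp iW
  have ih : Integrable fun x => rt ((Ψ x)ᴴ * Ψ x) := rtL.integrable_comp iΨ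
  set C : ℝ := Fintype.card n + LL q * (Y + 1) with hC
  have hC0 : 0 ≤ C := by positivity
  obtain ⟨T, hb, hT0, ht⟩ : ∃ T : ℝ,
      rt ((Ψ T)ᴴ * Ψ T) + rt ((Ψ (-T))ᴴ * Ψ (-T)) < ε / 3 / (C * ρ ^ 2 + 1) ∧ 0 ≤ T ∧
      ρ ^ 2 * ((∫ x, rt ((Ψ x)ᴴ * W x * Ψ x)) - ∫ x in -T..T, rt ((Ψ x)ᴴ * W x * Ψ x)) < ε / 3 := by
    have t1 := ((intervalIntegral_tendsto_integral iτ tendsto_neg_atTop_atBot tendsto_id).const_sub
      (∫ x, rt ((Ψ x)ᴴ * W x * Ψ x))).const_mul (ρ ^ 2)
    rw [sub_self, mul_zero] at t1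
    exact ((freq_small ih (by positivity)).and_eventually ((eventually_ge_atTop 0).and
      (t1.eventually (gt_mem_nhds (by positivity))))).exists
  have hab : -T ≤ T := by linarith
  set P : Matrix n n ℂ → ℝ → Matrix n n ℂ := fun K x => (Ψ x * r K)ᴴ * (Ψ x * r K) with hP
  have pP : ∀ K x, (P K x).PosSemidef := fun K x => posSemidef_conjTranspose_mul_self _
  have cF : Continuous fun z : Matrix n n ℂ × ℝ => Ψ z.2 * r z.1 :=
    (hΨ.cont.comp continuous_snd).matrix_mul (hr.comp continuous_fst)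
  have cP : ∀ {f : ℝ → ℝ}, Continuous f → Continuous fun z : Matrix n n ℂ × ℝ => fc f (P z.1 z.2) :=
    fun hf => continuous_fc hf (cF.matrix_conjTranspose.matrix_mul cF) fun z => (pP _ _).isHermitian
  have cX := continuous_rt.comp (cP (Real.continuous_rpow_const (q := (q + 1) / q) (by positivity)))
  set X : Matrix n n ℂ → ℝ := fun K => ∫ x in -T..T, rt (fc (· ^ ((q + 1) / q)) (P K x)) with hX
  have cX' : Continuous X :=
    intervalIntegral.continuous_parametric_intervalIntegral_of_continuous'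
      (f := fun K x => rt (fc (· ^ ((q + 1) / q)) (P K x))) cX _ _
  have X0 : ∀ K, 0 ≤ X K := fun K =>
    intervalIntegral.integral_nonneg hab fun x _ => rt_pow_nonneg (pP K x) _
  set μ : Matrix n n ℂ → ℝ := fun K => ((Y + η) / (X K + η)) ^ (1 / (q + 1)) with hμ
  have μ0 : ∀ K, 0 < μ K := fun K => by have := X0 K; simp only [hμ]; positivity
  have μp : ∀ K, μ K ^ (q + 1) = (Y + η) / (X K + η) := fun K => by
    have := X0 K
    simp only [hμ]
    rw [← Real.rpow_mul (by positivity), one_div_mul_cancel (by positivity), Real.rpow_one]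
  have cμ : Continuous μ := (continuous_const.div (cX'.add continuous_const) fun K =>
    (add_pos_of_nonneg_of_pos (X0 K) hη0).ne').rpow_const fun _ => Or.inr (by positivity)
  have cW := (cμ.comp continuous_fst).smul
    (cP (Real.continuous_rpow_const (q := 1 / q) (by positivity)))
  have iX : ∀ K, IntervalIntegrable (fun x => rt (fc (· ^ ((q + 1) / q)) (P K x))) volume (-T) T :=
    fun K => (cX.comp (Continuous.prodMk_right K)).intervalIntegrable _ _
  have hWt : ∀ K, ∫ x in -T..T, rt (fc (· ^ (q + 1)) (μ K • fc (· ^ (1 / q)) (P K x))) ≤ Y + η := by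
    intro K
    simp only [fun x => (wt_facts (pP K x) hq (μ0 K).le).2.1]
    rw [intervalIntegral.integral_const_mul, μp, div_mul_eq_mul_div, div_le_iff₀ (by
      have := X0 K; positivity)]
    gcongr; linarith
  obtain ⟨U, κ, 𝒰, hU, hκ, hpath⟩ := bvp hab (fun K x => μ K • fc (· ^ (1 / q)) (P K x)) cW
    (fun K x => (wt_facts (pP K x) hq (μ0 K).le).1) (R := (T - -T) * Fintype.card n + (Y + η))
    fun K => by
      have i1 : IntervalIntegrable (fun x => rt (fc (· ^ (q + 1))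
          (μ K • fc (· ^ (1 / q)) (P K x)))) volume (-T) T := by
        simp only [fun x => (wt_facts (pP K x) hq (μ0 K).le).2.1]
        exact (iX K).const_mul _
      refine (intervalIntegral.integral_mono_on hab
        ((continuous_rt.comp (cW.comp (Continuous.prodMk_right K))).intervalIntegrable _ _)
        (intervalIntegrable_const.add i1) fun x _ =>
          rt_le_pow (wt_facts (pP K x) hq (μ0 K).le).1 (by linarith)).trans ?_
      rw [intervalIntegral.integral_add intervalIntegrable_const i1,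
        intervalIntegral.integral_const, smul_eq_mul]
      linarith [hWt K]
  have hj := (HJ hU hab hpath hκ hq hq1).trans (mul_le_mul_of_nonneg_left (hWt _) hL)
  refine ⟨U, κ, hU, hκ, by linarith, ?_⟩
  set K := cj U κ with hK
  have nK : ‖K‖ ≤ C := by
    refine (norm_le_rt (psd_cj U hκ)).trans ?_
    rw [rt_cj hU]
    have := sum_le_sum (s := univ) fun j _ => le_one_add_rpow (hκ j) (show 1 ≤ 2 * q + 1 by linarith)
    rw [sum_add_distrib] at this
    simp only [sum_const, card_univ, nsmul_eq_mul, mul_one] at this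
    nlinarith
  have hF : H1 (fun x => Ψ x * r K) fun x => G x * r K := hΨ.comp (mulR (r K))
  have pos := positivity hF hab hpath
  have sw : ∀ (M : Matrix m m ℂ) (A : Matrix m n ℂ),
      rt ((A * r K)ᴴ * M * (A * r K)) = rt (Aᴴ * M * A * (r K * r K)) := fun M A => by
    rw [conjTranspose_mul, hrh, Matrix.mul_assoc, Matrix.mul_assoc, rt_comm]
    simp only [Matrix.mul_assoc]
  have sw1 : ∀ A : Matrix m n ℂ, rt ((A * r K)ᴴ * (A * r K)) = rt (Aᴴ * A * (r K * r K)) :=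
    fun A => by simpa using sw 1 A
  have nr : ‖r K * r K‖ ≤ ρ ^ 2 := (norm_mul_le _ _).trans (by
    rw [← sq]; exact pow_le_pow_left₀ (norm_nonneg _) (hρ K) 2)
  obtain ⟨j1, k1⟩ := rt_int (r K * r K) iW
  obtain ⟨j2, k2⟩ := rt_int (r K * r K) iG
  obtain ⟨j3, k3⟩ := rt_int (r K * (K * K) * r K) iΨ
  have b1 : ∫ x in -T..T, rt ((G x * r K)ᴴ * (G x * r K)) ≤ rt ((∫ x, (G x)ᴴ * G x) * (r K * r K)) := by
    simp only [sw1]
    rw [← k2, intervalIntegral.integral_of_le hab]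
    exact setIntegral_le_integral j2 (Eventually.of_forall fun x => by
      simp only [Pi.zero_apply, ← sw1]; exact rt_ctm_nonneg _)
  have b2 : ∫ x in -T..T, rt ((Ψ x * r K)ᴴ * (Ψ x * r K) * (K * K)) ≤ rt (K * K * (r K * r K)) := by
    have e : ∀ x, rt ((Ψ x * r K)ᴴ * (Ψ x * r K) * (K * K)) =
        rt ((Ψ x)ᴴ * Ψ x * (r K * (K * K) * r K)) := fun x => by
      rw [conjTranspose_mul, hrh, Matrix.mul_assoc, Matrix.mul_assoc, rt_comm]
      simp only [Matrix.mul_assoc]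
    rw [hO, Matrix.one_mul, rt_comm _ (r K), ← Matrix.mul_assoc (r K) (r K),
      rt_comm _ (K * K)] at k3
    simp only [e]
    rw [← k3, intervalIntegral.integral_of_le hab]
    refine setIntegral_le_integral j3 (Eventually.of_forall fun x => ?_)
    simp only [Pi.zero_apply, ← e]
    refine rt_mul_nonneg (pP K x) ?_
    have := posSemidef_conjTranspose_mul_self K
    rwa [hK, cj_herm] at this
  have b3 : ∀ x, rt ((Ψ x * r K)ᴴ * (Ψ x * r K) * K) ≤ C * ρ ^ 2 * rt ((Ψ x)ᴴ * Ψ x) := fun x => by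
    refine ((le_abs_self _).trans (abs_rt_mul_le _ _)).trans ?_
    have h1 := norm_le_rt (pP K x)
    simp only [hP] at h1
    rw [sw1] at h1
    have h2 := (le_abs_self _).trans (abs_rt_mul_le ((Ψ x)ᴴ * Ψ x) (r K * r K))
    have h3 := norm_le_rt (posSemidef_conjTranspose_mul_self (Ψ x))
    calc _ ≤ rt ((Ψ x)ᴴ * Ψ x) * ρ ^ 2 * C := by
          have := rt_ctm_nonneg (Ψ x)
          gcongr
          refine (h1.trans h2).trans ?_
          gcongr
      _ = _ := by ring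
  have b4 : rt ((∫ x, (Ψ x)ᴴ * W x * Ψ x) * (r K * r K)) ≤
      (∫ x in -T..T, rt ((Ψ x)ᴴ * W x * Ψ x * (r K * r K))) + ε / 3 := by
    have := setIntegral_le_integral (s := Set.Ioc (-T) T) ((iτ.const_mul (ρ ^ 2)).sub j1)
      (Eventually.of_forall fun x => by
        have h2 := (le_abs_self _).trans (abs_rt_mul_le ((Ψ x)ᴴ * W x * Ψ x) (r K * r K))
        have h4 := (hWp x).conjTranspose_mul_mul_same (Ψ x)
        have h3 := norm_le_rt h4
        have h5 := mul_le_mul h3 nr (norm_nonneg _) (rt_nonneg h4)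
        simp only [Pi.zero_apply, Pi.sub_apply]; linarith)
    simp only [Pi.sub_apply] at this
    rw [integral_sub (iτ.const_mul _) j1, integral_sub (iτ.const_mul _).integrableOn j1.integrableOn,
      integral_const_mul, integral_const_mul, ← intervalIntegral.integral_of_le hab,
      ← intervalIntegral.integral_of_le hab, k1] at this
    linarith
  have b5 : ∫ x in -T..T, rt ((Ψ x)ᴴ * W x * Ψ x * (r K * r K)) ≤
      μ K ^ (-q) / (q + 1) * Y + μ K * (q / (q + 1)) * X K := by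
    refine (intervalIntegral.integral_mono_on hab j1.intervalIntegrable
      ((hWi.intervalIntegrable.const_mul _).add ((iX K).const_mul _)) fun x _ =>
        (sw _ _).symm.trans_le (young_mat _ (hWp x) hq (μ0 K))).trans ?_
    rw [intervalIntegral.integral_add (hWi.intervalIntegrable.const_mul _) ((iX K).const_mul _),
      intervalIntegral.integral_const_mul, intervalIntegral.integral_const_mul]
    have := μ0 K
    gcongr
    rw [intervalIntegral.integral_of_le hab]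
    exact setIntegral_le_integral hWi (Eventually.of_forall fun x => rt_pow_nonneg (hWp x) _)
  have b6 : ∫ x in -T..T, rt ((Ψ x * r K)ᴴ * (Ψ x * r K) * (μ K • fc (· ^ (1 / q)) (P K x))) =
      μ K * X K := by
    rw [hX, ← intervalIntegral.integral_const_mul]
    exact intervalIntegral.integral_congr fun x _ => (wt_facts (pP K x) hq (μ0 K).le).2.2
  have b7 : μ K ^ (-q) / (q + 1) * Y + μ K * (q / (q + 1)) * X K - μ K * X K ≤ ε / 3 := by
    have hX0 := X0 K
    have hμ0 := μ0 K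
    have e1 : μ K ^ (-q) = μ K * ((X K + η) / (Y + η)) := by
      rw [← inv_div, ← μp, ← Real.rpow_neg hμ0.le, ← Real.rpow_one_add' hμ0.le (by linarith)]
      congr 1; ring
    have e2 : μ K * η ≤ (Y + η) ^ (1 / (q + 1)) * η ^ (q / (q + 1)) := by
      have : μ K ≤ ((Y + η) / η) ^ (1 / (q + 1)) := by
        simp only [hμ]; gcongr; linarith
      rw [Real.div_rpow (by positivity) hη0.le] at this
      rw [show q / (q + 1) = 1 - 1 / (q + 1) by field_simp; ring, Real.rpow_sub hη0, Real.rpow_one]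
      calc _ ≤ (Y + η) ^ (1 / (q + 1)) / η ^ (1 / (q + 1)) * η := by gcongr
        _ = _ := by ring
    have e3 : (X K + η) / (Y + η) * Y ≤ X K + η := by
      rw [div_mul_eq_mul_div, div_le_iff₀ (by positivity)]; gcongr; linarith
    have e4 : μ K ^ (-q) / (q + 1) * Y + μ K * (q / (q + 1)) * X K - μ K * X K =
        μ K * ((X K + η) / (Y + η) * Y - X K) / (q + 1) := by rw [e1]; field_simp; ring
    rw [e4, div_le_iff₀ (by positivity)]
    have : μ K * ((X K + η) / (Y + η) * Y - X K) ≤ μ K * η := by gcongr; linarith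
    have : 0 ≤ ε / 3 * q := by positivity
    linarith
  have b8 : C * ρ ^ 2 * (rt ((Ψ T)ᴴ * Ψ T) + rt ((Ψ (-T))ᴴ * Ψ (-T))) ≤ ε / 3 := by
    rw [lt_div_iff₀ (by positivity)] at hb
    have := rt_ctm_nonneg (Ψ T); have := rt_ctm_nonneg (Ψ (-T))
    linarith
  rw [← hE, Matrix.sub_mul, rt_sub]
  rw [b6] at pos
  linarith [b3 T, b3 (-T)]

end Vale.Agent.P371
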